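import Vale.Agent.P088.R2.H281.P.Sp
import Vale.Agent.P088.R2.H997.EP.NNg
import Vale.Agent.P088.R2.H737.G.GU
import Vale.Agent.P088.R2.H455.E.Lett

/-!
# P088, stage 3, row GAIN: the leaves `P1`, `P2`
-/

open MeasureTheory Set Filter
open scoped ContDiff Topology Matrix

noncomputable section

namespace Vale.Agent.P088.R2.H935.G

open Vale.Agent.P088.LR Vale.Agent.P088.HY Vale.Agent.P088.R2.H961.GW
open Vale.Agent.P088.R2.H551.E Vale.Agent.P088.R2.H31.EP Vale.Agent.P088.R2.H455.E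
open Vale.Agent.P088.R2.H867.EP (Zo zos mem_zos Near Off Inf)
open Vale.Agent.P088.R2.H850.E (lw lw_MP lw_MPm)
open Vale.Agent.P088.R2.H710.GP Vale.Agent.P088.R2.H281.P
open Vale.Agent.P088.R2.H737.G (RowUp RowLo rowGL_of up_Off ev_ε F_x F_y)
open Vale.Agent.P088.R2.H997.EP (GS evGS GG_ge prL_le)

variable {n : ℕ} {q : Cst} {d : Pk n} {z : VV n} {k : Zo}

/-- The conditions on the constants at the passes. -/
structure OC (n : ℕ) (q : Cst) : Prop extends PC n q where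
  S3 : 6 * prS q.e₁ ((3 * q.p₁) ^ 2) < q.M₀
  R3 : 3 * q.p₁ ≤ q.R

theorem evOC (n : ℕ) : EvC (OC n) := by
  have h1 : EvC fun q => 6 * prS q.e₁ ((3 * q.p₁) ^ 2) < q.M₀ :=
    EvC.at_M₀ (fun q t => 6 * prS q.e₁ ((3 * q.p₁) ^ 2) < t) fun q => eventually_gt_atTop _
  have h2 : EvC fun q => 3 * q.p₁ ≤ q.R :=
    EvC.at_R (fun q t => 3 * q.p₁ ≤ t) fun q => eventually_ge_atTop _
  refine (((evPC n).and h1).and h2).mono ?_
  rintro q ⟨⟨h, h1⟩, h2⟩
  exact { h with S3 := h1, R3 := h2 }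

/-- `L G₀ ≥ (9/10) NG` at the passes. -/
theorem ps_LG (hq : PC n q) (h : PkOk q d) {b : Bool} (hz : PsOk b q d z) :
    9 / 10 * d.NG q z ≤ prL q.e₁ (rr z) * d.G0 q z := by
  have hn := hz.fin.near
  have hNG := NG_pos hq.toGC h z
  have r0 : 0 < rr z := by linarith [hz.rr]
  have hT1 := hq.rT1
  have h7 : 4 * q.rT * d.NG q z ≤ 1 / 100 * d.NG q z :=
    mul_le_mul_of_nonneg_right (by linarith) hNG.le
  have hg := hz.g
  cases b
  · have hx : en (gy d q z) ≤ 4 * q.rT * d.NG q z := hg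
    have hl := (gl_near hq.inf h hn.g2 hn.w2).1
    have e1 : gy d q z = d.NG q z • gl d.l z.2 + (-(cq d q z)) • (z.1 - z.2) := by
      rw [gy_eq h hq.rad.e0, neg_smul, sub_eq_add_neg]
    have e2 : en ((-(cq d q z)) • (z.1 - z.2)) = prL q.e₁ (rr z) * d.G0 q z := by
      rw [← en_cq hq.rad r0, en_sm, en_sm, abs_neg]
    rw [e1] at hx
    have k1 := (en_lo (gl d.l z.2) ((-(cq d q z)) • (z.1 - z.2)) hNG.le).trans hx
    rw [e2] at k1
    have k2 := mul_le_mul_of_nonneg_left hl hNG.le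
    linarith
  · have hx : en (gx d q z) ≤ 4 * q.rT * d.NG q z := hg
    have hl := (gl_near hq.inf h hn.g1 hn.w1).1
    rw [gx_eq h hq.rad.e0] at hx
    have k1 := (en_lo (gl d.l z.1) (cq d q z • (z.1 - z.2)) hNG.le).trans hx
    rw [en_cq hq.rad r0] at k1
    have k2 := mul_le_mul_of_nonneg_left hl hNG.le
    linarith

/-- The level is positive at the passes. -/
theorem ps_u0 (hq : OC n q) (h : PkOk q d) {b : Bool} (hz : PsOk b q d z) : 0 ≤ d.u0 z := by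
  have h1 := ps_LG hq.toPC h hz
  have r3 := hz.rr
  have hL := prL_le hq.rad (r := rr z) (by linarith)
  have hM : q.M₀ ≤ d.NG q z := h.NG_ge hq.rad z
  have hS := hq.S3
  have hu : qq z < (3 * q.p₁) ^ 2 := hz.US
  have q0 : 0 ≤ qq z := qq_nonneg z
  have k1 : prS q.e₁ (qq z) ≤ prS q.e₁ ((3 * q.p₁) ^ 2) :=
    H281.EP.prS_mono hq.rad.e0 (show qq z ∈ Ici (0 : ℝ) from q0)
      (show (3 * q.p₁) ^ 2 ∈ Ici (0 : ℝ) from (q0.trans hu.le)) hu.le
  have s0 : 0 ≤ prS q.e₁ (qq z) := by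
    have h3 := H281.EP.prS_mono hq.rad.e0 (show (1 : ℝ) ∈ Ici (0 : ℝ) by simp)
      (show qq z ∈ Ici (0 : ℝ) from q0) (by rw [← rr_sq]; nlinarith)
    have h4 := H281.EP.prS_ge1 hq.rad.e0 (s := 1) (by norm_num) le_rfl
    linarith
  by_contra hc
  have hE : Real.exp (d.u0 z) ≤ 1 := Real.exp_le_one_iff.2 (not_le.1 hc).le
  have hG : d.G0 q z ≤ prS q.e₁ ((3 * q.p₁) ^ 2) := by
    show Real.exp (d.u0 z) * prS q.e₁ (qq z) ≤ _
    nlinarith [Real.exp_pos (d.u0 z)]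
  have hG0 : 0 ≤ d.G0 q z := by
    show 0 ≤ Real.exp (d.u0 z) * prS q.e₁ (qq z)
    positivity
  have k2 : prL q.e₁ (rr z) * d.G0 q z ≤ 5 * d.G0 q z := mul_le_mul_of_nonneg_right hL hG0
  linarith

/-- The sum of the gradients of the level. -/
theorem ps_sum (hq : OC n q) (h : PkOk q d) {b : Bool} (hz : PsOk b q d z) :
    2 - 3 * q.σ ≤ en (gl d.l z.1 + gl d.l z.2) := by
  have hd := nd_of hq.inf h hz.fin.near (ps_u0 hq h hz)
  have hR := hq.inf.R0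
  have hσ := hq.inf.σ0
  have e1 := gl_sub hq.inf h hd.l1 hd.l2
  have hr : rr z ≤ 3 * q.p₁ := by
    have hu : qq z < (3 * q.p₁) ^ 2 := hz.US
    have hp := Cst.p₁_ge hq.rad
    rw [← rr_sq] at hu
    exact (lt_of_pow_lt_pow_left₀ 2 (by linarith) hu).le
  have k1 : q.σ / q.R * en (z.1 - z.2) ≤ q.σ := by
    rw [div_mul_eq_mul_div, div_le_iff₀ hR]
    exact mul_le_mul_of_nonneg_left (hr.trans hq.R3) hσ.le
  have k2 := en_tri' (gl d.l z.1 + gl d.l z.2) (-(gl d.l z.1 - gl d.l z.2))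
  have e2 : gl d.l z.1 + gl d.l z.2 - -(gl d.l z.1 - gl d.l z.2) = (2 : ℝ) • gl d.l z.1 := by
    rw [two_smul]; abel
  have e3 : en (-(gl d.l z.1 - gl d.l z.2)) = en (gl d.l z.1 - gl d.l z.2) := by
    rw [← neg_one_smul ℝ, en_sm]; norm_num
  rw [e2, e3, e1, en_sm, abs_of_pos (by norm_num : (0 : ℝ) < 2)] at k2
  linarith [hd.g1]

/-- **The other gradient is long.** -/
theorem ps_oth (hq : OC n q) (h : PkOk q d) {b : Bool} (hz : PsOk b q d z) :
    3 / 2 * d.NG q z ≤ en (ws (!b) q d z) := by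
  have hNG := NG_pos hq.toGC h z
  have hT1 := hq.rT1
  have hT0 := hq.rT0
  have hσ := hq.inf.σ1
  have hs := ps_sum hq h hz
  have h7 : 4 * q.rT * d.NG q z ≤ 1 / 100 * d.NG q z :=
    mul_le_mul_of_nonneg_right (by linarith) hNG.le
  have h8 : q.rT / 2 * d.NG q z ≤ 1 / 100 * d.NG q z :=
    mul_le_mul_of_nonneg_right (by linarith) hNG.le
  have k3 := mul_le_mul_of_nonneg_left hs hNG.le
  have k4 : d.NG q z * (19 / 10) ≤ d.NG q z * (2 - 3 * q.σ) :=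
    mul_le_mul_of_nonneg_left (by linarith) hNG.le
  have hg := hz.g
  cases b
  · have hx : en (gy d q z) ≤ 4 * q.rT * d.NG q z := hg
    have hx' := hx
    have e1 : gy d q z = d.NG q z • gl d.l z.2 + (-(cq d q z)) • (z.1 - z.2) := by
      rw [gy_eq h hq.rad.e0, neg_smul, sub_eq_add_neg]
    have e2 : gx d q z = d.NG q z • gl d.l z.1 - (-(cq d q z)) • (z.1 - z.2) := by
      rw [gx_eq h hq.rad.e0, neg_smul, sub_neg_eq_add]
    rw [e1] at hx'
    have k2 := en_oth (gl d.l z.2) (gl d.l z.1) ((-(cq d q z)) • (z.1 - z.2)) hNG.le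
    rw [← e2, add_comm (gl d.l z.2)] at k2
    have hc := wx_close hq.toPC h hz.fin.near (by linarith [hz.rr]) hz.US hz.u
    have k5 := en_tri' (wx q d z) (wx q d z - gx d q z)
    rw [sub_sub_cancel] at k5
    show 3 / 2 * d.NG q z ≤ en (wx q d z)
    linarith
  · have hx : en (gx d q z) ≤ 4 * q.rT * d.NG q z := hg
    have hx' := hx
    rw [gx_eq h hq.rad.e0] at hx'
    have k2 := en_oth (gl d.l z.1) (gl d.l z.2) (cq d q z • (z.1 - z.2)) hNG.le
    rw [← gy_eq h hq.rad.e0] at k2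
    have hc := wy_close hq.toPC h hz.fin.near (by linarith [hz.rr]) hz.US hz.u
    have k5 := en_tri' (wy q d z) (wy q d z - gy d q z)
    rw [sub_sub_cancel] at k5
    show 3 / 2 * d.NG q z ≤ en (wy q d z)
    linarith

/-! ## The rows -/

/-- The facts at a point of the passes. -/
structure Ps (q : Cst) (d : Pk n) (b : Bool) (z : VV n) : Prop where
  N1 : 1 ≤ d.NG q z
  NG : H747.A.NG q d z ^ 2 ≤ 2 * d.NG q z ^ 2
  GG : d.NG q z ≤ 16 * H747.A.GG q d z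
  F : d.NG q z ^ 2 ≤ (bif b then d.sy else d.sx).F (d.W q) z
  F0 : 0 ≤ (bif b then d.sx else d.sy).F (d.W q) z

theorem ev_ps (n : ℕ) : EvC fun q => 1 ≤ q.R ∧ ∀ d : Pk n, PkOk q d → ∀ b z,
    d.ch q (leaf b) z ≠ 0 → Ps q d b z := by
  refine ((((evOC n).and (supp_P n)).and ((evGS n).and (H997.EP.EvC.fc n))).and
    ((ev_ε n).and EvC.pos)).mono ?_
  rintro q ⟨⟨⟨hq, hs⟩, hg, hf⟩, hε, -, -, -, -, -, -, -, hR⟩
  refine ⟨hR, fun d h b z hz => ?_⟩
  have p := hs d h b z (subset_tsupport _ hz)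
  have f := hf d h
  have hk : leaf b = .P1 ∨ leaf b = .P2 := by cases b <;> simp [leaf]
  have o := ps_oth hq h p
  have N1 : 1 ≤ d.NG q z := hq.M1.trans (h.NG_ge hq.rad z)
  have N0 : 0 ≤ d.NG q z := by linarith
  have o2 : 9 / 4 * d.NG q z ^ 2 ≤ en (ws (!b) q d z) ^ 2 := by
    have := pow_le_pow_left₀ (by positivity) o 2
    nlinarith
  refine ⟨N1, ?_, GG_ge hg h f hz hk, ?_, ?_⟩
  · rw [p.NG]
    have h2 := (abs_le.1 p.NT)
    have h3 : 0 ≤ NT d q z := by linarith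
    nlinarith
  · cases b
    · have h1 := F_x h hε (d.W q) z
      have e : ∑ i, d.sx.D i (d.W q) z ^ 2 = en (ws (!false) q d z) ^ 2 := (en_sq _).symm
      show _ ≤ d.sx.F (d.W q) z
      rw [e] at h1
      nlinarith
    · have h1 := F_y h hε (d.W q) z
      have e : ∑ i, d.sy.D i (d.W q) z ^ 2 = en (ws (!true) q d z) ^ 2 := (en_sq _).symm
      show _ ≤ d.sy.F (d.W q) z
      rw [e] at h1
      nlinarith
  · cases b
    · have h1 := F_y h hε (d.W q) z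
      have : 0 ≤ ∑ i, d.sy.D i (d.W q) z ^ 2 := Finset.sum_nonneg fun _ _ => sq_nonneg _
      show 0 ≤ d.sy.F (d.W q) z
      linarith
    · have h1 := F_x h hε (d.W q) z
      have : 0 ≤ ∑ i, d.sx.D i (d.W q) z ^ 2 := Finset.sum_nonneg fun _ _ => sq_nonneg _
      show 0 ≤ d.sx.F (d.W q) z
      linarith

theorem num_P {N G F X ρ R lwv : ℝ} (hρ : 0 < ρ) (hR : 1 ≤ R) (N1 : 1 ≤ N) (hX : X ^ 2 ≤ 2 * N ^ 2)
    (hG : N ≤ 16 * G) (hF : N ^ 2 ≤ F)
    (h : ∀ B, B ≤ G ^ 2 → B ≤ G * F → ρ * B ≤ lwv) : ρ / 512 / R * X ^ 2 ≤ lwv := by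
  have G0 : 0 < G := by linarith
  have h1 : N ^ 2 / 256 ≤ G ^ 2 := by nlinarith
  have h2 : N ^ 2 / 256 ≤ G * F := by
    have k1 : N / 16 * N ^ 2 ≤ G * F :=
      mul_le_mul (by linarith) hF (by positivity) G0.le
    have k2 : N ^ 2 ≤ N * N ^ 2 := le_mul_of_one_le_left (by positivity) N1
    nlinarith
  refine le_trans ?_ (h _ h1 h2)
  have h3 : ρ / 512 / R ≤ ρ / 512 := div_le_self (by positivity) hR
  calc ρ / 512 / R * X ^ 2 ≤ ρ / 512 * (2 * N ^ 2) :=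
        mul_le_mul h3 hX (sq_nonneg _) (by positivity)
    _ = ρ * (N ^ 2 / 256) := by ring

/-- **The leaf `P1`.** -/
theorem lo_P1 (n : ℕ) {ρ : Cst → ℝ} (hρ : NB_R ρ) (h0 : ∀ q, 0 < ρ q) :
    RowLo n .P1 H747.A.NG fun q (d : Pk n) =>
      H660.P.MP d.sx d.sy (d.W q) (H747.A.GG q d) (ρ q) := by
  refine ⟨fun q => ρ q / 512, fun q => by show ρ q.b_R / 512 = _; rw [hρ q], ?_⟩
  refine (ev_ps n).mono fun q hq => ⟨by have := h0 q; positivity, fun d h z hz => ?_⟩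
  have p := hq.2 d h true z hz
  have G0 : 0 ≤ H747.A.GG q d z := by linarith [p.GG, p.N1]
  exact num_P (h0 q) hq.1 p.N1 p.NG p.GG p.F fun B b1 b2 =>
    lw_MP (h0 q).le G0 p.F0 b1 b2

/-- **The leaf `P2`.** -/
theorem lo_P2 (n : ℕ) {ρ : Cst → ℝ} (hρ : NB_R ρ) (h0 : ∀ q, 0 < ρ q) :
    RowLo n .P2 H747.A.NG fun q (d : Pk n) =>
      H660.P.MPm d.sx d.sy (d.W q) (H747.A.GG q d) (ρ q) := by
  refine ⟨fun q => ρ q / 512, fun q => by show ρ q.b_R / 512 = _; rw [hρ q], ?_⟩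
  refine (ev_ps n).mono fun q hq => ⟨by have := h0 q; positivity, fun d h z hz => ?_⟩
  have p := hq.2 d h false z hz
  have G0 : 0 ≤ H747.A.GG q d z := by linarith [p.GG, p.N1]
  exact num_P (h0 q) hq.1 p.N1 p.NG p.GG p.F fun B b1 b2 =>
    lw_MPm (h0 q).le G0 p.F0 b1 b2

theorem NB_R_rT' {c : Cst → ℝ} (h : NB_rT c) : NB_R c := fun q => by
  rw [← h q.b_R, ← h q]
  rfl

theorem gl_P1 (hn : 1 ≤ n) {L : Lc n} (hL : L.Ok) (hG : ∀ q d, L.GP q d = H747.A.GG q d) :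
    RowGL (Mz L) .P1 fun _ => 1 := by
  have e : (fun q d => Mz L q d .P1) = fun q (d : Pk n) =>
      H660.P.MP d.sx d.sy (d.W q) (H747.A.GG q d) (L.cP q) :=
    funext fun q => funext fun d => by
      show H660.P.MP d.sx d.sy (d.W q) (L.GP q d) (L.cP q) = _
      rw [hG]
  refine rowGL_of (up_Off hn (by unfold Off; decide)) ?_ (fun _ => rfl)
    (EvC.of fun _ => one_pos)
  rw [e]
  exact lo_P1 n (NB_R_rT' hL.cP.2) hL.cP.1

theorem gl_P2 (hn : 1 ≤ n) {L : Lc n} (hL : L.Ok) (hG : ∀ q d, L.GP q d = H747.A.GG q d) :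
    RowGL (Mz L) .P2 fun _ => 1 := by
  have e : (fun q d => Mz L q d .P2) = fun q (d : Pk n) =>
      H660.P.MPm d.sx d.sy (d.W q) (H747.A.GG q d) (L.cP q) :=
    funext fun q => funext fun d => by
      show H660.P.MPm d.sx d.sy (d.W q) (L.GP q d) (L.cP q) = _
      rw [hG]
  refine rowGL_of (up_Off hn (by unfold Off; decide)) ?_ (fun _ => rfl)
    (EvC.of fun _ => one_pos)
  rw [e]
  exact lo_P2 n (NB_R_rT' hL.cP.2) hL.cP.1

end Vale.Agent.P088.R2.H935.G
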