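import Vale.Agent.P088.R2.H935.G.Gl
import Vale.Agent.P088.R2.H935.G.P
import Vale.Agent.P088.R2.H737.G.Gf
import Vale.Agent.P088.R2.H997.EP.NNf
import Vale.Agent.P088.R2.H912.A.Sup
import Vale.Agent.P088.R2.H303.F.Gain
import Vale.Agent.P088.R2.H349.G.Gs

/-!
# P088, stage 3, row GAIN: the field `gl` of `Rest F`
-/

open MeasureTheory Set Filter
open scoped ContDiff Topology Matrix

noncomputable section

namespace Vale.Agent.P088.R2.H935.G

open Vale.Agent.P088.LR Vale.Agent.P088.HY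
open Vale.Agent.P088.R2.H551.E Vale.Agent.P088.R2.H31.EP Vale.Agent.P088.R2.H455.E
open Vale.Agent.P088.R2.H867.EP (Zo zos mem_zos Near Off Inf)
open Vale.Agent.P088.R2.H558.G (Lf Lit)
open Vale.Agent.P088.R2.H997.EP (LfN)

variable {n : ℕ}

/-- The row of the leaf `iH`. -/
def RowGH (n : ℕ) : Prop := ∀ M : Fam n, (∀ q d, M q d .iH = H168.INF.MiH q d) →
  ∃ g : Cst → ℝ, NoM g ∧ RowGL M .iH g

/-- **All the gain rows.** -/
theorem gl_all (hn : 1 ≤ n) {F : Lf n} (hF : LfN F) (hH : RowGH n) :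
    ∀ L : Lc n, L.Ok → Lit F L → ∀ k, ∃ g : Cst → ℝ, NoM g ∧ RowGL (Mz L) k g := by
  intro L hL h k
  have hkz : ∀ q d z, L.kz q d z = H942.Pk.kz q d z := fun q d z => by rw [h.kz, hF.kz]
  have hGP : ∀ q d, L.GP q d = H747.A.GG q d := fun q d => by rw [h.GP, hF.GP]
  have hS := H912.A.rowSup n
  have one : NoM fun _ => 1 := fun _ _ _ _ _ _ => rfl
  cases k with
  | z0 => exact gl_near hn hL hkz (by unfold Near; simp)
  | zI => exact gl_near hn hL hkz (by unfold Near; simp)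
  | z2a => exact gl_near hn hL hkz (by unfold Near; simp)
  | z2b => exact gl_near hn hL hkz (by unfold Near; simp)
  | zB => exact gl_near hn hL hkz (by unfold Near; simp)
  | T1 => exact ⟨_, one, H737.G.gl_T1 hn hL⟩
  | T2 => exact ⟨_, one, H737.G.gl_T2 hn hL⟩
  | A1 => exact ⟨_, one, H737.G.gl_A1 hn hL hS⟩
  | A2 => exact ⟨_, one, H737.G.gl_A2 hn hL hS⟩
  | Af => exact ⟨_, one, H737.G.gl_Af hn hL hS⟩
  | P1 => exact ⟨_, one, gl_P1 hn hL hGP⟩
  | P2 => exact ⟨_, one, gl_P2 hn hL hGP⟩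
  | iH =>
    exact hH (Mz L) fun q d => by
      show L.FM .iH q d = _
      rw [h.FM, hF.iH]
  | iF => exact ⟨_, one, H737.G.gl_iF hn (H303.F.rowG hn) fun q d => by rw [h.FM, hF.iF]⟩
  | iS =>
    exact H349.G.gl_iS hn fun q d => by
      show L.FM .iS q d = _
      rw [h.FM, hF.iS]
  | RSn => exact ⟨_, one, H737.G.gl_RSn hn (m := fun q d z => H312.S.mRS q d z)
      (κ₀ := fun _ => 1 / 200) (fun q d z => rfl) fun q d => by rw [h.FM, hF.RSn]⟩
  | RSf => exact ⟨_, one, H737.G.gl_RSf hn (κ₀ := fun _ => 1 / 200)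
      fun q d => by rw [h.FM, hF.RSf]⟩

end Vale.Agent.P088.R2.H935.G
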