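import Vale.Agent.P088.R2.H455.E.Top

/-!
# P088, stage 3, row GAIN: the cost of the localised gains

`|cy| ≤ C e (F_y + |Λ_y W| + 1)`, `cy = 0` where `|y|² > 5 R²`; `RowGain` from the leaves.
-/

open MeasureTheory Set Filter
open scoped ContDiff Topology Matrix

noncomputable section

namespace Vale.Agent.P088.R2.H935.G

open Vale.Agent.P088.LR Vale.Agent.P088.HY Vale.Agent.P088.R2.H961.GW
open Vale.Agent.P088.R2.H551.E Vale.Agent.P088.R2.H31.EP Vale.Agent.P088.R2.H455.E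
open Vale.Agent.P088.R2.H935.Gn (gC gY gX)
open Vale.Agent.P088.R2.H850.E (lw Nn)
open Vale.Agent.P088.R2.H867.EP (Zo zos mem_zos)

/-! ## The cut-off -/

section cut

variable {n : ℕ}

theorem cR_smooth (R : ℝ) : ContDiff ℝ ∞ (cR n R) := c2_smooth.comp (contDiff_const_smul _)

theorem c2_cpt : HasCompactSupport (c2 (n := n)) := by
  refine HasCompactSupport.intro (K := Metric.closedBall 0 5) (isCompact_closedBall _ _) ?_
  intro x hx
  rw [Metric.mem_closedBall, dist_zero_right, not_le] at hx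
  refine c2_zero ?_
  by_contra hc
  rw [not_le] at hc
  have h1 : ‖x‖ ≤ 5 := by
    rw [pi_norm_le_iff_of_nonneg (by norm_num)]
    intro i
    have h2 : x i ^ 2 ≤ HY.sq x := by
      unfold HY.sq
      exact Finset.single_le_sum (f := fun i => x i ^ 2) (fun j _ => sq_nonneg _)
        (Finset.mem_univ i)
    rw [Real.norm_eq_abs]
    refine abs_le_of_sq_le_sq ?_ (by norm_num)
    nlinarith
  linarith

/-- The derivatives of the cut-off are bounded. -/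
theorem c2_bd (n : ℕ) : ∃ A : ℝ, 0 ≤ A ∧ (∀ x i, |pd i (c2 (n := n)) x| ≤ A) ∧
    ∀ x i j, |pd i (pd j (c2 (n := n))) x| ≤ A := by
  have c1 : ∀ j, ContDiff ℝ ∞ (pd j (c2 (n := n))) := fun j =>
    (c2_smooth.fderiv_right (m := ∞) (by simp)).clm_apply contDiff_const
  have s1 : ∀ j, HasCompactSupport (pd j (c2 (n := n))) := fun j =>
    c2_cpt.fderiv_apply (𝕜 := ℝ) _
  have s2 : ∀ i j, HasCompactSupport (pd i (pd j (c2 (n := n)))) := fun i j =>
    (s1 j).fderiv_apply (𝕜 := ℝ) _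
  have c3 : ∀ i j, ContDiff ℝ ∞ (pd i (pd j (c2 (n := n)))) := fun i j =>
    ((c1 j).fderiv_right (m := ∞) (by simp)).clm_apply contDiff_const
  have b1 : ∀ j, ∃ A, ∀ x, |pd j (c2 (n := n)) x| ≤ A := fun j => by
    obtain ⟨A, hA⟩ := (s1 j).exists_bound_of_continuous (c1 j).continuous
    exact ⟨A, hA⟩
  have b2 : ∀ i j, ∃ A, ∀ x, |pd i (pd j (c2 (n := n))) x| ≤ A := fun i j => by
    obtain ⟨A, hA⟩ := (s2 i j).exists_bound_of_continuous (c3 i j).continuous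
    exact ⟨A, hA⟩
  choose A hA using b1
  choose B hB using b2
  refine ⟨∑ i, |A i| + ∑ i, ∑ j, |B i j|, by positivity, fun x i => ?_, fun x i j => ?_⟩
  · have h1 : |A i| ≤ ∑ i, |A i| := Finset.single_le_sum (f := fun i => |A i|)
      (fun _ _ => abs_nonneg _) (Finset.mem_univ i)
    have h2 : 0 ≤ ∑ i, ∑ j, |B i j| := by positivity
    linarith [hA i x, le_abs_self (A i)]
  · have h1 : |B i j| ≤ ∑ j, |B i j| := Finset.single_le_sum (f := fun j => |B i j|)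
      (fun _ _ => abs_nonneg _) (Finset.mem_univ j)
    have h3 : ∑ j, |B i j| ≤ ∑ i, ∑ j, |B i j| := Finset.single_le_sum
      (f := fun i => ∑ j, |B i j|) (fun _ _ => by positivity) (Finset.mem_univ i)
    have h2 : 0 ≤ ∑ i, |A i| := by positivity
    linarith [hB i j x, le_abs_self (B i j)]

/-- Scaling. -/
theorem pd_scale {f : V n → ℝ} (hf : ContDiff ℝ ∞ f) (c : ℝ) (i : Fin n) (x : V n) :
    pd i (fun x => f (c • x)) x = c * pd i f (c • x) := by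
  have h1 : HasFDerivAt (fun x : V n => f (c • x))
      ((fderiv ℝ f (c • x)).comp (c • ContinuousLinearMap.id ℝ (V n))) x :=
    HasFDerivAt.comp x (hf.differentiable (by simp) _).hasFDerivAt
      ((hasFDerivAt_id x).const_smul c)
  show fderiv ℝ (fun x : V n => f (c • x)) x (Pi.single i 1) = _
  rw [h1.fderiv]
  show fderiv ℝ f (c • x) (c • (Pi.single i 1 : V n)) = _
  rw [map_smul]
  rfl

theorem cR_bd (n : ℕ) : ∃ A : ℝ, 0 ≤ A ∧ ∀ R : ℝ, 1 ≤ R → (∀ x i, |pd i (cR n R) x| ≤ A) ∧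
    ∀ x i j, |pd i (pd j (cR n R)) x| ≤ A := by
  obtain ⟨A, hA, h1, h2⟩ := c2_bd n
  refine ⟨A, hA, fun R hR => ?_⟩
  have hR0 : 0 < R := by linarith
  have hi : |R⁻¹| ≤ 1 := by
    rw [abs_of_pos (inv_pos.2 hR0)]
    exact inv_le_one_of_one_le₀ hR
  have e1 : ∀ j, pd j (cR n R) = fun x => R⁻¹ * pd j c2 (R⁻¹ • x) := fun j =>
    funext fun x => pd_scale c2_smooth _ j x
  have c1 : ∀ j, ContDiff ℝ ∞ (pd j (c2 (n := n))) := fun j =>
    (c2_smooth.fderiv_right (m := ∞) (by simp)).clm_apply contDiff_const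
  refine ⟨fun x i => ?_, fun x i j => ?_⟩
  · rw [e1, abs_mul]
    calc |R⁻¹| * |pd i c2 (R⁻¹ • x)| ≤ 1 * A := mul_le_mul hi (h1 _ _) (abs_nonneg _) zero_le_one
      _ = A := one_mul A
  · have e2 : pd i (pd j (cR n R)) x = R⁻¹ * (R⁻¹ * pd i (pd j c2) (R⁻¹ • x)) := by
      rw [e1 j]
      have h3 : DifferentiableAt ℝ (fun x : V n => pd j c2 (R⁻¹ • x)) x :=
        ((c1 j).comp (contDiff_const_smul _)).differentiable (by simp) x
      show fderiv ℝ (fun x => R⁻¹ * pd j c2 (R⁻¹ • x)) x (Pi.single i 1) = _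
      rw [fderiv_const_mul h3]
      show R⁻¹ * pd i (fun x => pd j c2 (R⁻¹ • x)) x = _
      rw [pd_scale (c1 j)]
    rw [e2, abs_mul, abs_mul]
    calc |R⁻¹| * (|R⁻¹| * |pd i (pd j c2) (R⁻¹ • x)|) ≤ 1 * (1 * A) := by
          refine mul_le_mul hi (mul_le_mul hi (h2 _ _ _) (abs_nonneg _) zero_le_one) ?_ zero_le_one
          positivity
      _ = A := by ring

theorem cR_zero {R : ℝ} (hR : 0 < R) {x : V n} (h : 5 * R ^ 2 < HY.sq x) : cR n R =ᶠ[𝓝 x] 0 := by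
  have hc : Continuous fun x : V n => HY.sq x := by
    unfold HY.sq
    exact continuous_finsetSum _ fun i _ => (continuous_apply i).pow 2
  filter_upwards [(isOpen_lt continuous_const hc).mem_nhds h] with y hy
  show c2 (R⁻¹ • y) = 0
  refine c2_zero ?_
  have e : HY.sq (R⁻¹ • y) = R⁻¹ ^ 2 * HY.sq y := by
    unfold HY.sq
    simp only [Pi.smul_apply, smul_eq_mul, mul_pow, Finset.mul_sum]
  rw [e, inv_pow, ← div_eq_inv_mul, le_div_iff₀ (by positivity)]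
  exact le_of_lt hy

end cut

/-! ## The cost, for any slot -/

section slot

variable {E ι κ : Type*} [NormedAddCommGroup E] [NormedSpace ℝ E] [Fintype ι] [Fintype κ]

theorem gY_le {τ : Sl E ι} {om W : E → ℝ} {z : E} {e A : ℝ} (he : 0 ≤ e) (hA : 0 ≤ A)
    (h0 : |om z| ≤ 2 * e) (h1 : ∀ i, |τ.D i om z| ≤ 2 * e * A) (h2 : |τ.Λ om z| ≤ 2 * e * A)
    (hs : ∀ i j, |τ.s i j z| ≤ 2) (hE : 1 / 2 * ∑ i, τ.D i W z ^ 2 ≤ τ.F W z) :
    |gY τ om (fun _ => 0) W z| ≤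
      (8 + 40 * A * (Fintype.card ι : ℝ) ^ 2) * e * (τ.F W z + |τ.Λ W z| + 1) +
        A * e := by
  set N := (Fintype.card ι : ℝ) with hN
  have hN0 : 0 ≤ N := Nat.cast_nonneg _
  have hF0 : 0 ≤ τ.F W z := by
    have : 0 ≤ ∑ i, τ.D i W z ^ 2 := Finset.sum_nonneg fun i _ => sq_nonneg _
    linarith
  have hL0 := abs_nonneg (τ.Λ W z)
  -- the gradient term
  have g1 : |τ.Γ W om z| ≤ 4 * e * A * N * ∑ i, |τ.D i W z| := by
    unfold Sl.Γ
    calc |∑ i, ∑ j, τ.s i j z * τ.D i W z * τ.D j om z| ≤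
        ∑ i, ∑ j, |τ.s i j z * τ.D i W z * τ.D j om z| :=
          (Finset.abs_sum_le_sum_abs _ _).trans
            (Finset.sum_le_sum fun i _ => Finset.abs_sum_le_sum_abs _ _)
      _ ≤ ∑ i : ι, ∑ _j : ι, 2 * |τ.D i W z| * (2 * e * A) := by
          refine Finset.sum_le_sum fun i _ => Finset.sum_le_sum fun j _ => ?_
          rw [abs_mul, abs_mul]
          exact mul_le_mul (mul_le_mul_of_nonneg_right (hs i j) (abs_nonneg _)) (h1 j)
            (abs_nonneg _) (by positivity)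
      _ = 4 * e * A * N * ∑ i, |τ.D i W z| := by
          simp only [Finset.sum_const, Finset.card_univ, nsmul_eq_mul, ← hN]
          rw [Finset.mul_sum]
          exact Finset.sum_congr rfl fun i _ => by ring
  have g2 : ∑ i, |τ.D i W z| ≤ N + τ.F W z := by
    have h3 : ∀ i, |τ.D i W z| ≤ 1 / 2 + 1 / 2 * τ.D i W z ^ 2 := fun i => by
      nlinarith [sq_nonneg (|τ.D i W z| - 1), sq_abs (τ.D i W z)]
    have h4 : ∑ i, |τ.D i W z| ≤ ∑ i, (1 / 2 + 1 / 2 * τ.D i W z ^ 2) :=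
      Finset.sum_le_sum fun i _ => h3 i
    rw [Finset.sum_add_distrib, Finset.sum_const, ← Finset.mul_sum, Finset.card_univ,
      nsmul_eq_mul, ← hN] at h4
    linarith
  have g3 : |τ.Γ W om z| ≤ 4 * e * A * N * (N + τ.F W z) :=
    g1.trans (mul_le_mul_of_nonneg_left g2 (by positivity))
  have g4 : N ≤ N ^ 2 ∨ N = 0 := by
    rcases Nat.eq_zero_or_pos (Fintype.card ι) with h | h
    · right; rw [hN, h]; simp
    · left
      have : (1 : ℝ) ≤ N := by rw [hN]; exact_mod_cast h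
      nlinarith
  have g5 : N ≤ N ^ 2 := by
    rcases g4 with h | h
    · exact h
    · rw [h]; norm_num
  have m1 : |om z * (2 * τ.F W z - τ.Λ W z + 0)| ≤ 2 * e * (2 * τ.F W z + |τ.Λ W z|) := by
    rw [abs_mul, add_zero]
    refine mul_le_mul h0 ?_ (abs_nonneg _) (by positivity)
    refine (abs_sub _ _).trans ?_
    rw [abs_of_nonneg (by positivity : 0 ≤ 2 * τ.F W z)]
  have t : |gY τ om (fun _ => 0) W z| ≤ |om z * (2 * τ.F W z - τ.Λ W z + 0)| +
      1 / 2 * |τ.Λ om z| + 2 * |τ.Γ W om z| := by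
    unfold gY
    refine (abs_sub _ _).trans ?_
    refine add_le_add ((abs_add_le _ _).trans (add_le_add le_rfl ?_)) ?_
    · rw [abs_mul, abs_of_pos (by norm_num : (0 : ℝ) < 1 / 2)]
    · rw [abs_mul, abs_of_pos (by norm_num : (0 : ℝ) < 2)]
  have x1 : 0 ≤ e * A := by positivity
  have x2 : e * A * N * N ≤ e * A * N ^ 2 := by rw [mul_assoc, ← pow_two]
  have x3 : e * A * N * τ.F W z ≤ e * A * N ^ 2 * τ.F W z :=
    mul_le_mul_of_nonneg_right (mul_le_mul_of_nonneg_left g5 x1) hF0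
  have x4 : 0 ≤ e * A * N ^ 2 * |τ.Λ W z| := by positivity
  have x5 : 0 ≤ e * A * N ^ 2 * τ.F W z := by positivity
  have x6 : 0 ≤ e * A * N ^ 2 := by positivity
  have x7 : 0 ≤ e * |τ.Λ W z| := by positivity
  have x8 : 0 ≤ e * τ.F W z := by positivity
  nlinarith [t, m1, g3, h2]

end slot

/-! ## The cost for the package -/

section pk

variable {n : ℕ}

theorem s_bd {s : MF n} {ε R : ℝ} (hs : SmM s) (hR : 1 ≤ R) (hε : ε ≤ 1) (h : ∀ i j, ∀ m ≤ 12, ∀ x,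
    ‖iteratedFDeriv ℝ m (fun x => s x i j - (1 : Matrix (Fin n) (Fin n) ℝ) i j) x‖ ≤
      ε * R⁻¹ ^ m) (x : V n) (i j k : Fin n) :
    |s x i j - (1 : Matrix (Fin n) (Fin n) ℝ) i j| ≤ ε ∧ |s x i j| ≤ 2 ∧
      |pd k (fun x => s x i j) x| ≤ 1 := by
  have h0 := h i j 0 (by norm_num) x
  rw [norm_iteratedFDeriv_zero, pow_zero, mul_one, Real.norm_eq_abs] at h0
  have h1 := h i j 1 (by norm_num) x
  rw [norm_iteratedFDeriv_one, pow_one] at h1
  have e0 : 0 ≤ ε := (abs_nonneg _).trans h0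
  refine ⟨h0, ?_, ?_⟩
  · have h2 : |(1 : Matrix (Fin n) (Fin n) ℝ) i j| ≤ 1 := by
      rw [Matrix.one_apply]
      split_ifs <;> norm_num
    have h3 := abs_add_le (s x i j - (1 : Matrix (Fin n) (Fin n) ℝ) i j)
      ((1 : Matrix (Fin n) (Fin n) ℝ) i j)
    rw [sub_add_cancel] at h3
    linarith
  · have h4 : fderiv ℝ (fun x => s x i j - (1 : Matrix (Fin n) (Fin n) ℝ) i j) x =
        fderiv ℝ (fun x => s x i j) x := fderiv_sub_const _
    rw [h4] at h1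
    have h5 := (fderiv ℝ (fun x => s x i j) x).le_opNorm (Pi.single k 1)
    have h6 : ‖(Pi.single k 1 : V n)‖ ≤ 1 := by
      rw [Pi.norm_single]
      simp
    have h7 : R⁻¹ ≤ 1 := inv_le_one_of_one_le₀ hR
    have h8 : 0 ≤ R⁻¹ := by positivity
    have h9 : ‖fderiv ℝ (fun x => s x i j) x‖ ≤ 1 := h1.trans (by nlinarith)
    show |fderiv ℝ (fun x => s x i j) x (Pi.single k 1)| ≤ 1
    rw [← Real.norm_eq_abs]
    refine h5.trans ?_
    calc ‖fderiv ℝ (fun x => s x i j) x‖ * ‖(Pi.single k 1 : V n)‖ ≤ 1 * 1 :=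
          mul_le_mul h9 h6 (norm_nonneg _) zero_le_one
      _ = 1 := one_mul 1

/-- What is used of the slots. -/
structure Sb (s : MF n) : Prop where
  sm : SmM s
  b0 : ∀ x i j, |s x i j| ≤ 2
  b1 : ∀ x i j k, |pd k (fun x => s x i j) x| ≤ 1
  el : El s

theorem sb_of {s : MF n} {ε R : ℝ} (hs : SmM s) (hR : 1 ≤ R) (hε : ε ≤ 1) (hn : (n : ℝ) * ε ≤ 1 / 2)
    (h : ∀ i j, ∀ m ≤ 12, ∀ x,
    ‖iteratedFDeriv ℝ m (fun x => s x i j - (1 : Matrix (Fin n) (Fin n) ℝ) i j) x‖ ≤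
      ε * R⁻¹ ^ m) : Sb s :=
  ⟨hs, fun x i j => (s_bd hs hR hε h x i j i).2.1, fun x i j k => (s_bd hs hR hε h x i j k).2.2,
    el_of hn fun x i j => (s_bd hs hR hε h x i j i).1⟩

/-- The constant of `cy_le`. -/
def Cg (n : ℕ) : ℝ := 9 + 41 * ((3 * n ^ 2 + 1) * (cR_bd n).choose) * (n + 1) ^ 2

theorem Cg_ge (n : ℕ) : 1 ≤ Cg n := by
  have h := (cR_bd n).choose_spec.1
  unfold Cg
  have : 0 ≤ 41 * ((3 * (n : ℝ) ^ 2 + 1) * (cR_bd n).choose) * (n + 1) ^ 2 := by positivity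
  linarith

theorem gC_le {σ τ : Sl (VV n) (Fin n)} {W om : VV n → ℝ} {e K A : ℝ} {z : VV n} (he : 0 ≤ e)
    (hK : 0 < K) (heK : e ≤ K) (hA : 0 ≤ A) (o0 : |om z| ≤ 2 * e)
    (o1 : ∀ i, |τ.D i om z| ≤ 2 * e * A) (o2 : ∀ i j, |τ.D i (τ.D j om) z| ≤ 2 * e * A)
    (b0 : ∀ i j, |τ.s i j z| ≤ 2) (b1 : ∀ i j, |τ.D i (τ.s i j) z| ≤ 1) (k0 : ∀ i, τ.k i z = 0)
    (k3 : 1 / 2 * ∑ i, τ.D i W z ^ 2 ≤ τ.F W z) :
    |gC σ τ K om (fun _ => 0) (fun _ => 0) W z| ≤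
      (9 + 41 * ((3 * n ^ 2 + 1) * A) * (n + 1) ^ 2) * e * (τ.F W z + |τ.Λ W z| + 1) := by
  have hn0 : (0 : ℝ) ≤ n := Nat.cast_nonneg n
  have k1 : |τ.Λ om z| ≤ 2 * e * ((3 * n ^ 2 + 1) * A) := by
    have h4 : |τ.Λ om z| ≤ ∑ i : Fin n, ∑ j : Fin n, (6 * e * A) := by
      unfold Sl.Λ
      refine (Finset.abs_sum_le_sum_abs _ _).trans (Finset.sum_le_sum fun i _ =>
        (Finset.abs_sum_le_sum_abs _ _).trans (Finset.sum_le_sum fun j _ => ?_))
      rw [k0, zero_mul, add_zero]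
      refine (abs_add_le _ _).trans ?_
      rw [abs_mul, abs_mul]
      have h8 := mul_le_mul (b0 i j) (o2 i j) (abs_nonneg _) (by norm_num)
      have h9 := mul_le_mul (b1 i j) (o1 j) (abs_nonneg _) (by norm_num)
      linarith
    simp only [Finset.sum_const, Finset.card_univ, Fintype.card_fin, nsmul_eq_mul] at h4
    refine h4.trans ?_
    have : 0 ≤ e * A := by positivity
    nlinarith
  have k2 : ∀ i, |τ.D i om z| ≤ 2 * e * ((3 * n ^ 2 + 1) * A) := fun i => by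
    refine (o1 i).trans (mul_le_mul_of_nonneg_left ?_ (by positivity))
    nlinarith [mul_nonneg (sq_nonneg (n : ℝ)) hA]
  have hF0 : 0 ≤ τ.F W z := by
    have : 0 ≤ ∑ i, τ.D i W z ^ 2 := Finset.sum_nonneg fun i _ => sq_nonneg _
    linarith
  have g := gY_le (τ := τ) (om := om) (W := W) (z := z) (e := e)
    (A := (3 * (n : ℝ) ^ 2 + 1) * A) he (by positivity) o0 k2 k1 b0 k3
  rw [Fintype.card_fin] at g
  have e2 : gC σ τ K om (fun _ => 0) (fun _ => 0) W z =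
      gY τ om (fun _ => 0) W z + om z ^ 2 / (4 * K) := by
    unfold gC
    have : gX σ (fun _ => (0 : ℝ)) W z = 0 := by
      have := H935.Gn.gX_const (σ := σ) (W := W) (z := z) 0
      rw [this, zero_mul]
    rw [this, sub_zero]
  have e3 : |om z ^ 2 / (4 * K)| ≤ e := by
    rw [abs_of_nonneg (by positivity), div_le_iff₀ (by positivity)]
    have h1 : om z ^ 2 ≤ (2 * e) ^ 2 := by
      rw [← sq_abs]
      exact pow_le_pow_left₀ (abs_nonneg _) o0 2
    nlinarith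
  rw [e2]
  refine (abs_add_le _ _).trans ?_
  have hX : 1 ≤ τ.F W z + |τ.Λ W z| + 1 := by
    have := abs_nonneg (τ.Λ W z)
    linarith
  set X := τ.F W z + |τ.Λ W z| + 1
  have q0 : 0 ≤ (3 * (n : ℝ) ^ 2 + 1) * A := by positivity
  have q1 : (3 * (n : ℝ) ^ 2 + 1) * A * e ≤ (3 * (n : ℝ) ^ 2 + 1) * A * (n + 1) ^ 2 * e * X := by
    have : (1 : ℝ) ≤ (n + 1) ^ 2 := by nlinarith
    have h5 : (3 * (n : ℝ) ^ 2 + 1) * A * e * 1 * 1 ≤
      (3 * (n : ℝ) ^ 2 + 1) * A * e * (n + 1) ^ 2 * X := by gcongr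
    linarith
  have q2 : (3 * (n : ℝ) ^ 2 + 1) * A * (n : ℝ) ^ 2 * e * X ≤
      (3 * (n : ℝ) ^ 2 + 1) * A * (n + 1) ^ 2 * e * X := by
    have : (n : ℝ) ^ 2 ≤ (n + 1) ^ 2 := by nlinarith
    gcongr
  have q3 : e ≤ e * X := by nlinarith
  nlinarith [g, e3]

theorem cR_abs (R : ℝ) (x : V n) : |cR n R x| ≤ 1 := by
  rw [abs_of_nonneg (show 0 ≤ cR n R x from c2_nonneg _)]
  exact c2_le_one _

theorem cR_pd (R : ℝ) (j : Fin n) : ContDiff ℝ ∞ (pd j (cR n R)) :=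
  ((cR_smooth (n := n) R).fderiv_right (m := ∞) (by simp)).clm_apply contDiff_const

theorem cy_le {s₁ s₂ : MF n} (h : Sb s₂) {W : VV n → ℝ} {e K R : ℝ} (he : 0 ≤ e) (hK : 0 < K)
    (heK : e ≤ K) (hR : 1 ≤ R) (z : VV n) : |cy s₁ s₂ W (cR n R) e 0 K z| ≤
      Cg n * e * ((fy s₂).F W z + |(fy s₂).Λ W z| + 1) := by
  obtain ⟨hA1, hA2⟩ := (cR_bd n).choose_spec.2 R hR
  have sc := cR_smooth (n := n) R
  have h2e : (0 : ℝ) ≤ 2 * e := by positivity
  have d1 : ∀ i z, (fy s₂).D i (fun z : VV n => 2 * e * cR n R z.2) z =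
      2 * e * pd i (cR n R) z.2 := fun i z => by
    have h1 : DifferentiableAt ℝ (fun x => 2 * e * cR n R x) z.2 :=
      (contDiff_const.mul sc).differentiable (by simp) _
    have h2 := Dy_snd (r := fun _ => (1 : ℝ)) (s := s₂) (z := z) h1 i
    rw [one_mul] at h2
    refine h2.trans ?_
    show fderiv ℝ (fun x => 2 * e * cR n R x) z.2 (Pi.single i 1) = _
    rw [fderiv_const_mul (sc.differentiable (by simp) _)]
    rfl
  have d2 : ∀ i j z, (fy s₂).D i ((fy s₂).D j (fun z : VV n => 2 * e * cR n R z.2)) z =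
      2 * e * pd i (pd j (cR n R)) z.2 := fun i j z => by
    have e1 : (fy s₂).D j (fun z : VV n => 2 * e * cR n R z.2) =
      fun z => 2 * e * pd j (cR n R) z.2 := funext fun z => d1 j z
    rw [e1]
    have h1 : DifferentiableAt ℝ (fun x => 2 * e * pd j (cR n R) x) z.2 :=
      (contDiff_const.mul (cR_pd R j)).differentiable (by simp) _
    have h2 := Dy_snd (r := fun _ => (1 : ℝ)) (s := s₂) (z := z) h1 i
    rw [one_mul] at h2
    refine h2.trans ?_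
    show fderiv ℝ (fun x => 2 * e * pd j (cR n R) x) z.2 (Pi.single i 1) = _
    rw [fderiv_const_mul ((cR_pd R j).differentiable (by simp) _)]
    rfl
  refine gC_le he hK heK (cR_bd n).choose_spec.1 ?_ (fun i => ?_) (fun i j => ?_)
    (fun i j => h.b0 _ _ _) (fun i j => ?_) (fun i => fy_k i z)
    (h.el z.2 fun i => (fy s₂).D i W z).1
  · rw [abs_mul, abs_of_nonneg h2e]
    exact mul_le_of_le_one_right h2e (cR_abs _ _)
  · rw [d1, abs_mul, abs_of_nonneg h2e]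
    exact mul_le_mul_of_nonneg_left (hA1 _ _) h2e
  · rw [d2, abs_mul, abs_of_nonneg h2e]
    exact mul_le_mul_of_nonneg_left (hA2 _ _ _) h2e
  · have h2 := Dy_snd (r := fun _ => (1 : ℝ)) (s := s₂) (z := z)
      (((h.sm i j).differentiable (by simp)) z.2) i
    rw [one_mul] at h2
    have h3 : (fy s₂).D i ((fy s₂).s i j) z = pd i (fun x => s₂ x i j) z.2 := h2
    rw [h3]
    exact h.b1 _ _ _ _

theorem cx_le {s₁ s₂ : MF n} (h : Sb s₁) {W : VV n → ℝ} {e K R : ℝ} (he : 0 ≤ e) (hK : 0 < K)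
    (heK : e ≤ K) (hR : 1 ≤ R) (z : VV n) : |cx s₁ s₂ W (cR n R) e 0 K z| ≤
      Cg n * e * ((fx s₁).F W z + |(fx s₁).Λ W z| + 1) := by
  obtain ⟨hA1, hA2⟩ := (cR_bd n).choose_spec.2 R hR
  have sc := cR_smooth (n := n) R
  have h2e : (0 : ℝ) ≤ 2 * e := by positivity
  have d1 : ∀ i z, (fx s₁).D i (fun z : VV n => 2 * e * cR n R z.1) z =
      2 * e * pd i (cR n R) z.1 := fun i z => by
    have h1 : DifferentiableAt ℝ (fun x => 2 * e * cR n R x) z.1 :=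
      (contDiff_const.mul sc).differentiable (by simp) _
    have h2 := Dx_fst (r := fun _ => (1 : ℝ)) (s := s₁) (z := z) h1 i
    rw [one_mul] at h2
    refine h2.trans ?_
    show fderiv ℝ (fun x => 2 * e * cR n R x) z.1 (Pi.single i 1) = _
    rw [fderiv_const_mul (sc.differentiable (by simp) _)]
    rfl
  have d2 : ∀ i j z, (fx s₁).D i ((fx s₁).D j (fun z : VV n => 2 * e * cR n R z.1)) z =
      2 * e * pd i (pd j (cR n R)) z.1 := fun i j z => by
    have e1 : (fx s₁).D j (fun z : VV n => 2 * e * cR n R z.1) =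
      fun z => 2 * e * pd j (cR n R) z.1 := funext fun z => d1 j z
    rw [e1]
    have h1 : DifferentiableAt ℝ (fun x => 2 * e * pd j (cR n R) x) z.1 :=
      (contDiff_const.mul (cR_pd R j)).differentiable (by simp) _
    have h2 := Dx_fst (r := fun _ => (1 : ℝ)) (s := s₁) (z := z) h1 i
    rw [one_mul] at h2
    refine h2.trans ?_
    show fderiv ℝ (fun x => 2 * e * pd j (cR n R) x) z.1 (Pi.single i 1) = _
    rw [fderiv_const_mul ((cR_pd R j).differentiable (by simp) _)]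
    rfl
  refine gC_le he hK heK (cR_bd n).choose_spec.1 ?_ (fun i => ?_) (fun i j => ?_)
    (fun i j => h.b0 _ _ _) (fun i j => ?_) (fun i => fx_k i z)
    (h.el z.1 fun i => (fx s₁).D i W z).1
  · rw [abs_mul, abs_of_nonneg h2e]
    exact mul_le_of_le_one_right h2e (cR_abs _ _)
  · rw [d1, abs_mul, abs_of_nonneg h2e]
    exact mul_le_mul_of_nonneg_left (hA1 _ _) h2e
  · rw [d2, abs_mul, abs_of_nonneg h2e]
    exact mul_le_mul_of_nonneg_left (hA2 _ _ _) h2e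
  · have h2 := Dx_fst (r := fun _ => (1 : ℝ)) (s := s₁) (z := z)
      (((h.sm i j).differentiable (by simp)) z.1) i
    rw [one_mul] at h2
    have h3 : (fx s₁).D i ((fx s₁).s i j) z = pd i (fun x => s₁ x i j) z.1 := h2
    rw [h3]
    exact h.b1 _ _ _ _

/-- A weight which vanishes near the point costs nothing. -/
theorem gC_zero {σ τ : Sl (VV n) (Fin n)} {W om : VV n → ℝ} {K : ℝ} {z : VV n}
    (h0 : om =ᶠ[𝓝 z] fun _ => 0) : gC σ τ K om (fun _ => 0) (fun _ => 0) W z = 0 := by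
  have h1 : ∀ j, τ.D j om =ᶠ[𝓝 z] fun _ => 0 := fun j => by
    filter_upwards [eventually_eventually_nhds.2 h0] with w hw
    have hw' : om =ᶠ[𝓝 w] fun _ => 0 := hw
    unfold Sl.D
    rw [hw'.fderiv_eq]
    simp
  have h2 : ∀ i j, τ.D i (τ.D j om) z = 0 := fun i j => by
    show τ.ρ z * fderiv ℝ (τ.D j om) z (τ.e i) = 0
    have h3 : fderiv ℝ (τ.D j om) z = 0 := by
      rw [(h1 j).fderiv_eq]
      simp
    rw [h3]
    simp
  have e1 : τ.Λ om z = 0 := by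
    unfold Sl.Λ
    refine Finset.sum_eq_zero fun i _ => Finset.sum_eq_zero fun j _ => ?_
    rw [h2, (h1 j).self_of_nhds]
    ring
  have e2 : τ.Γ W om z = 0 := by
    unfold Sl.Γ
    refine Finset.sum_eq_zero fun i _ => Finset.sum_eq_zero fun j _ => ?_
    rw [(h1 j).self_of_nhds]
    ring
  have e3 : gX σ (fun _ => (0 : ℝ)) W z = 0 := by
    have := H935.Gn.gX_const (σ := σ) (W := W) (z := z) 0
    rw [this, zero_mul]
  unfold gC gY
  rw [e1, e2, e3, h0.self_of_nhds]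
  ring

theorem cy_zero {s₁ s₂ : MF n} {W : VV n → ℝ} {e K R : ℝ} (hR : 0 < R) {z : VV n}
    (hz : 5 * R ^ 2 < HY.sq z.2) : cy s₁ s₂ W (cR n R) e 0 K z = 0 := by
  refine gC_zero ?_
  have h1 : Tendsto (fun z : VV n => z.2) (𝓝 z) (𝓝 z.2) := continuous_snd.continuousAt
  filter_upwards [h1.eventually (cR_zero hR hz)] with w hw
  rw [hw]
  simp

theorem cx_zero {s₁ s₂ : MF n} {W : VV n → ℝ} {e K R : ℝ} (hR : 0 < R) {z : VV n}
    (hz : 5 * R ^ 2 < HY.sq z.1) : cx s₁ s₂ W (cR n R) e 0 K z = 0 := by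
  refine gC_zero ?_
  have h1 : Tendsto (fun z : VV n => z.1) (𝓝 z) (𝓝 z.1) := continuous_fst.continuousAt
  filter_upwards [h1.eventually (cR_zero hR hz)] with w hw
  rw [hw]
  simp

/-! ## The leaves -/

/-- The gain inequalities of one letter at one point. -/
structure GLe (q : Cst) (d : Pk n) (M : Q8 (VV n)) (b : ℝ) (z : VV n) : Prop where
  y : HY.sq z.2 ≤ 5 * q.R ^ 2 →
    b * ((fy d.s₂).F (d.W q) z + |(fy d.s₂).Λ (d.W q) z| + 1) ≤ lw M z
  x : HY.sq z.1 ≤ 5 * q.R ^ 2 →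
    b * ((fx d.s₁).F (d.W q) z + |(fx d.s₁).Λ (d.W q) z| + 1) ≤ lw M z
  o : b ≤ lw M z

/-- **The gain row of the zone `k`**, `g k` a function of the constants up to `M₀`. -/
def RowGL (M : Fam n) (k : Zo) (g : Cst → ℝ) : Prop := EvC fun q => 0 < g q ∧
  ∀ d : Pk n, PkOk q d → ∀ z, d.ch q k z ≠ 0 → GLe q d (M q d k) (g q * (q.R ^ 2)⁻¹) z

/-- The slots of the package. -/
theorem ev_sb (n : ℕ) : EvC fun q => ∀ d : Pk n, PkOk q d → Sb d.s₁ ∧ Sb d.s₂ := by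
  have h1 : EvC fun q => q.ε ≤ 1 ∧ (n : ℝ) * q.ε ≤ 1 / 2 :=
    EvC.at_ε (fun _ t => t ≤ 1 ∧ (n : ℝ) * t ≤ 1 / 2) fun _ => by
      have hn : (0 : ℝ) < 2 * (n + 1) := by positivity
      filter_upwards [sml_le (a := 1) one_pos, sml_pos,
        sml_le (a := 1 / (2 * ((n : ℝ) + 1))) (by positivity)] with t a0 a1 a2
      refine ⟨a0, ?_⟩
      rw [le_div_iff₀ hn] at a2
      nlinarith
  refine (h1.and EvC.pos).mono ?_
  rintro q ⟨⟨a1, a2⟩, a3⟩ d ok
  have hR := a3.2.2.2.2.2.2.2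
  exact ⟨sb_of ok.rg.sm₁ hR a1 a2 ok.rg.cl₁, sb_of ok.rg.sm₂ hR a1 a2 ok.rg.cl₂⟩

theorem zos_ne : zos.Nonempty := ⟨.iH, mem_zos _⟩

/-- The gain constant from those of the leaves. -/
def gAll (n : ℕ) (κ₀ : Cst → ℝ) (g : Zo → Cst → ℝ) (q : Cst) : ℝ :=
  min (κ₀ q) (zos.inf' zos_ne fun k => g k q) / (16 * Cg n)

theorem gAll_NoM {κ₀ : Cst → ℝ} {g : Zo → Cst → ℝ} (hκ : NoM κ₀) (hg : ∀ k, NoM (g k)) :
    NoM (gAll n κ₀ g) := by
  intro q kv ε η Ck R
  unfold gAll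
  rw [hκ q kv ε η Ck R]
  congr 2
  exact Finset.inf'_congr _ rfl fun k _ => hg k q kv ε η Ck R

/-- **Row GAIN from the leaves.** -/
theorem rowGain_of {M : Fam n} {κ₀ : Cst → ℝ} {g : Zo → Cst → ℝ} (hκ : EvC fun q => 0 < κ₀ q)
    (hg : ∀ k, NoM (g k)) (h : ∀ k, RowGL M k (g k)) : RowGain M κ₀ (gAll n κ₀ g) := by
  have hC := Cg_ge n
  have hC0 : 0 < Cg n := by linarith
  have hA : EvC fun q => ∀ k, 0 < g k q ∧
      ∀ d : Pk n, PkOk q d → ∀ z, d.ch q k z ≠ 0 → GLe q d (M q d k) (g k q * (q.R ^ 2)⁻¹) z :=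
    evZo (P := fun k q => 0 < g k q ∧ ∀ d : Pk n, PkOk q d → ∀ z, d.ch q k z ≠ 0 →
      GLe q d (M q d k) (g k q * (q.R ^ 2)⁻¹) z) h
  have hR : EvC fun q => ∀ k, 0 < g k q → 16 * G0 q.R ≤ g k q * (q.R ^ 2)⁻¹ := by
    refine evZo (P := fun k q => 0 < g k q → 16 * G0 q.R ≤ g k q * (q.R ^ 2)⁻¹) fun k => ?_
    have h1 := EvC.at_R (fun q t => 0 < g k q → 16 * G0 t ≤ g k q * (t ^ 2)⁻¹) fun q => by
      by_cases hq : 0 < g k q
      · have h2 : Tendsto (fun t : ℝ => t ^ (-(3 / 2) : ℝ)) atTop (𝓝 0) :=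
          tendsto_rpow_neg_atTop (by norm_num)
        have h3 : ∀ᶠ t : ℝ in atTop, t ^ (-(3 / 2) : ℝ) < g k q / 16 :=
          h2.eventually (gt_mem_nhds (by positivity))
        filter_upwards [h3, eventually_gt_atTop 0] with t a1 a2 _
        have e1 : G0 t = t ^ (-(3 / 2) : ℝ) * (t ^ 2)⁻¹ := by
          unfold G0
          rw [show (-(7 / 2) : ℝ) = -(3 / 2) + (-2) by norm_num, Real.rpow_add a2,
            Real.rpow_neg a2.le 2]
          norm_num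
        rw [e1, ← mul_assoc]
        refine mul_le_mul_of_nonneg_right (by linarith) (by positivity)
      · exact Eventually.of_forall fun _ hc => absurd hc hq
    refine h1.mono fun q hq => ?_
    have e : g k q.b_R = g k q := hg k q q.kv q.ε q.η q.Ck 0
    rw [e] at hq
    exact hq
  refine ((((hA.and hR).and (ev_sb n)).and hκ).and EvC.pos).mono ?_
  rintro q ⟨⟨⟨⟨hA, hR⟩, hs⟩, hκ⟩, hp⟩
  have R1 : 1 ≤ q.R := hp.2.2.2.2.2.2.2
  have R0 : 0 < q.R := by linarith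
  have hm : 0 < zos.inf' zos_ne fun k => g k q := by
    rw [Finset.lt_inf'_iff]
    exact fun k _ => (hA k).1
  have hg0 : 0 < gAll n κ₀ g q := div_pos (lt_min hκ hm) (by positivity)
  refine ⟨hg0, fun d ok k z hz => ?_⟩
  obtain ⟨g0, hL⟩ := hA k
  have L := hL d ok z hz
  obtain ⟨s1, s2⟩ := hs d ok
  have hi : (q.R ^ 2)⁻¹ ≤ 1 := inv_le_one_of_one_le₀ (by nlinarith)
  have hi0 : 0 < (q.R ^ 2)⁻¹ := by positivity
  have e1 : gAll n κ₀ g q * (16 * Cg n) ≤ κ₀ q := by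
    unfold gAll
    rw [div_mul_cancel₀ _ (by positivity)]
    exact min_le_left _ _
  have e2 : gAll n κ₀ g q * (16 * Cg n) ≤ g k q := by
    unfold gAll
    rw [div_mul_cancel₀ _ (by positivity)]
    exact (min_le_right _ _).trans (Finset.inf'_le _ (mem_zos k))
  set e := gAll n κ₀ g q * (q.R ^ 2)⁻¹ with he
  have e0 : 0 ≤ e := by positivity
  have eK : e ≤ κ₀ q := by
    have : e ≤ gAll n κ₀ g q * 1 := mul_le_mul_of_nonneg_left hi hg0.le
    nlinarith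
  have e3 : 16 * Cg n * e ≤ g k q * (q.R ^ 2)⁻¹ := by
    have := mul_le_mul_of_nonneg_right e2 hi0.le
    calc 16 * Cg n * e = gAll n κ₀ g q * (16 * Cg n) * (q.R ^ 2)⁻¹ := by rw [he]; ring
      _ ≤ _ := this
  set b := g k q * (q.R ^ 2)⁻¹ with hb
  have b0 : 0 < b := mul_pos g0 hi0
  have h8 := hR k g0
  have key : ∀ {F L c : ℝ}, 0 ≤ F → 0 ≤ L → |c| ≤ Cg n * e * (F + L + 1) →
      8 * (G0 q.R + c) ≤ b * (F + L + 1) := by
    intro F L c hF hL hc
    have h1 : c ≤ Cg n * e * (F + L + 1) := (le_abs_self c).trans hc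
    have h2 : 16 * Cg n * e * (F + L + 1) ≤ b * (F + L + 1) :=
      mul_le_mul_of_nonneg_right e3 (by positivity)
    have h3 : b ≤ b * (F + L + 1) := by nlinarith
    linarith
  have F0 : ∀ {s : MF n} (_ : Sb s) (z : VV n), 0 ≤ (fy s).F (d.W q) z ∧ 0 ≤ (fx s).F (d.W q) z :=
    fun {s} h z => by
    have k1 := (h.el z.2 fun i => (fy s).D i (d.W q) z).1
    have k2 := (h.el z.1 fun i => (fx s).D i (d.W q) z).1
    have k3 : 0 ≤ ∑ i, (fy s).D i (d.W q) z ^ 2 := Finset.sum_nonneg fun i _ => sq_nonneg _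
    have k4 : 0 ≤ ∑ i, (fx s).D i (d.W q) z ^ 2 := Finset.sum_nonneg fun i _ => sq_nonneg _
    exact ⟨le_trans (by linarith) k1, le_trans (by linarith) k2⟩
  constructor
  · by_cases hy : HY.sq z.2 ≤ 5 * q.R ^ 2
    · exact (key (F0 s2 z).1 (abs_nonneg _)
        (cy_le (s₁ := d.s₁) (W := d.W q) s2 e0 hκ eK R1 z)).trans (L.y hy)
    · have : gy0 q d (κ₀ q) (gAll n κ₀ g q) z = 0 := cy_zero R0 (not_le.1 hy)
      rw [this]
      linarith [L.o]
  · by_cases hx : HY.sq z.1 ≤ 5 * q.R ^ 2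
    · exact (key (F0 s1 z).2 (abs_nonneg _)
        (cx_le (s₂ := d.s₂) (W := d.W q) s1 e0 hκ eK R1 z)).trans (L.x hx)
    · have : gx0 q d (κ₀ q) (gAll n κ₀ g q) z = 0 := cx_zero R0 (not_le.1 hx)
      rw [this]
      linarith [L.o]

/-- The condition of `rowZ_of` on `g`. -/
theorem gAll_ζ {κ₀ ζ₀ : Cst → ℝ} {g : Zo → Cst → ℝ} (hκ : NoM κ₀) (hg : ∀ k, NoM (g k))
    (hζ : NoM ζ₀) (h : EvC fun q => 0 < ζ₀ q) :
    EvC fun q => gAll n κ₀ g q * (q.R ^ 2)⁻¹ ≤ ζ₀ q / q.R := by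
  have h1 := EvC.at_R (fun q t => 0 < ζ₀ q → gAll n κ₀ g q * (t ^ 2)⁻¹ ≤ ζ₀ q / t) fun q => by
    by_cases hq : 0 < ζ₀ q
    · filter_upwards [eventually_ge_atTop (gAll n κ₀ g q / ζ₀ q), eventually_gt_atTop 0] with t a1 a2 _
      rw [div_le_iff₀ hq] at a1
      rw [← div_eq_mul_inv, div_le_div_iff₀ (by positivity) a2]
      nlinarith
    · exact Eventually.of_forall fun _ hc => absurd hc hq
  refine (h1.and h).mono ?_
  rintro q ⟨hq, h0⟩
  have e1 : ζ₀ q.b_R = ζ₀ q := hζ q q.kv q.ε q.η q.Ck 0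
  have e2 : gAll n κ₀ g q.b_R = gAll n κ₀ g q := gAll_NoM hκ hg q q.kv q.ε q.η q.Ck 0
  rw [e1, e2] at hq
  exact hq h0

end pk

end Vale.Agent.P088.R2.H935.G
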