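import Vale.Agent.P088.R2.H935.G.All
import Vale.Agent.P088.R2.H349.G.Gh

/-!
# P088, stage 3, row GAIN: all the rows, no hypothesis
-/

open Set Filter
open scoped ContDiff Topology Matrix

noncomputable section

namespace Vale.Agent.P088.R2.H935.G

open Vale.Agent.P088.R2.H551.E Vale.Agent.P088.R2.H31.EP Vale.Agent.P088.R2.H455.E
open Vale.Agent.P088.R2.H867.EP (Zo)
open Vale.Agent.P088.R2.H558.G (Lf Lit)
open Vale.Agent.P088.R2.H997.EP (LfN)

variable {n : ℕ}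

/-- The row of the leaf `iH` (helper349). -/
theorem rowGH (hn : 1 ≤ n) : RowGH n := fun _ hM =>
  ⟨H349.G.gH, H349.G.gH_NoM, H349.G.gl_iH hn hM⟩

/-- **All the gain rows.** -/
theorem gl_fin (hn : 1 ≤ n) {F : Lf n} (hF : LfN F) :
    ∀ L : Lc n, L.Ok → Lit F L → ∀ k, ∃ g : Cst → ℝ, NoM g ∧ RowGL (Mz L) k g :=
  gl_all hn hF (rowGH hn)

end Vale.Agent.P088.R2.H935.G
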