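import Vale.Agent.P088.R2.H935.G.Near
import Vale.Agent.P088.R2.H420.G.ZI
import Vale.Agent.P088.R2.H238.Z.KeP

/-!
# P088, stage 3, row GAIN: the five near leaves
-/

open MeasureTheory Set Filter
open scoped ContDiff Topology Matrix

noncomputable section

namespace Vale.Agent.P088.R2.H935.G

open Vale.Agent.P088.LR Vale.Agent.P088.HY Vale.Agent.P088.R2.H961.GW
open Vale.Agent.P088.R2.H551.E Vale.Agent.P088.R2.H31.EP Vale.Agent.P088.R2.H455.E
open Vale.Agent.P088.R2.H867.EP (Zo zos mem_zos Near Off Inf)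

variable {n : ℕ}

/-- **Zone II.** -/
theorem gl_z2 (hn : 1 ≤ n) {L : Lc n} (hk : ∀ q d z, L.kz q d z = H942.Pk.kz q d z) {k : Zo}
    (hk2 : k = .z2a ∨ k = .z2b) : ∃ g, NoM g ∧ RowGL (Mz L) k g := by
  refine H420.G.gl_z2_ex hn hk2 (kz := L.kz) (c := fun _ => 1 / 5) (κ := fun _ => 1)
    (fun q kv ε η Ck R => rfl) (fun q kv ε η Ck R => rfl) ?_ ?_ ?_
  · intro q d
    rcases hk2 with rfl | rfl <;> rfl
  · refine (EvC.low2 n).mono fun q h => ⟨by norm_num, fun d ok z hz => ?_⟩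
    have hz' : d.ch q .z2a z ≠ 0 ∨ d.ch q .z2b z ≠ 0 := by
      rcases hk2 with rfl | rfl
      · exact Or.inl hz
      · exact Or.inr hz
    have l := h d ok z hz'
    exact ⟨l.Fx, l.Fy⟩
  · refine ((H238.Z.ke hn (fun _ => 1) fun _ => rfl).and EvC.pos).mono ?_
    rintro q ⟨h, -, -, -, -, -, -, -, hR⟩
    refine ⟨one_pos, fun d ok z hz => ?_⟩
    have hz' : d.ch q .z2a z ≠ 0 ∨ d.ch q .z2b z ≠ 0 := by
      rcases hk2 with rfl | rfl
      · exact Or.inl hz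
      · exact Or.inr hz
    have l := (h d ok z hz').1
    have h1 : (0 : ℝ) ≤ d.N q z ^ 2 / d.m q z ^ 2 := by positivity
    have h2 : 1 / q.R ≤ 1 := by
      rw [div_le_one (by linarith)]
      exact hR
    rw [hk]
    show 1 / q.R ≤ _
    linarith

/-- **All the near leaves.** -/
theorem gl_near (hn : 1 ≤ n) {L : Lc n} (hL : L.Ok) (hk : ∀ q d z, L.kz q d z = H942.Pk.kz q d z)
    {k : Zo} (h : Near k) : ∃ g, NoM g ∧ RowGL (Mz L) k g := by
  rcases h with rfl | rfl | rfl | rfl | rfl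
  · exact gl_z0 hn hL
  · exact ⟨_, H420.G.gl_zI_L hn hL⟩
  · exact gl_z2 hn hk (Or.inl rfl)
  · exact ⟨_, H420.G.gl_zB_L hn hL⟩
  · exact gl_z2 hn hk (Or.inr rfl)

end Vale.Agent.P088.R2.H935.G
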