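import Vale.Agent.P088.R2.H935.G.Gp
import Vale.Agent.P088.R2.H238.C.Loc
import Vale.Agent.P088.R2.H281.EP.Prs

/-!
# P088, stage 3, row GAIN: lower bounds of `F` near the diagonal

On `Gz` (levels between `-R` and `l₀ + 5/2 R`): if `r ≤ 2 c₀` and `100 N² ≤ E m` then
`F_x, F_y ≥ E m / 5`.
-/

open MeasureTheory Set Filter
open scoped ContDiff Topology Matrix

noncomputable section

namespace Vale.Agent.P088.R2.H935.G

open Vale.Agent.P088.LR Vale.Agent.P088.HY Vale.Agent.P088.R2.H961.GW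
open Vale.Agent.P088.R2.H551.E Vale.Agent.P088.R2.H31.EP
open Vale.Agent.P088.R2.H464.Cu (mid dif rq bf dg Hv rq_d midL)
open Vale.Agent.P088.R2.H238.C

variable {n : ℕ} {q : Cst} {d : Pk n}

theorem sqn (x : V n) : 0 ≤ HY.sq x := Finset.sum_nonneg fun _ _ => sq_nonneg _

theorem bf_dg_le {g : MF n} {p v δ : V n} {B : ℝ} (hB : ∀ i j, |dg v g p i j| ≤ B) :
    |bf (dg v g p) δ δ| ≤ n * B * HY.sq δ := by
  have hS : (∑ i, |δ i|) ^ 2 ≤ n * HY.sq δ := by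
    have h := sq_sum_le_card_mul_sum_sq (s := (Finset.univ : Finset (Fin n))) (f := fun i => |δ i|)
    simp only [sq_abs, Finset.card_univ, Fintype.card_fin] at h
    exact h
  have h1 : |bf (dg v g p) δ δ| ≤ ∑ i, ∑ j, B * (|δ i| * |δ j|) := by
    unfold bf
    refine (Finset.abs_sum_le_sum_abs _ _).trans (Finset.sum_le_sum fun i _ =>
      (Finset.abs_sum_le_sum_abs _ _).trans (Finset.sum_le_sum fun j _ => ?_))
    rw [abs_mul, abs_mul, mul_assoc]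
    exact mul_le_mul_of_nonneg_right (hB i j) (by positivity)
  have h2 : ∑ i, ∑ j, B * (|δ i| * |δ j|) = B * (∑ i, |δ i|) ^ 2 := by
    rw [pow_two, Finset.sum_mul_sum, Finset.mul_sum]
    exact Finset.sum_congr rfl fun i _ => by rw [Finset.mul_sum]
  by_cases hn : n = 0
  · subst hn
    have : bf (dg v g p) δ δ = 0 := by unfold bf; simp
    rw [this]; simp
  · have hB0 : 0 ≤ B := (abs_nonneg _).trans (hB ⟨0, Nat.pos_of_ne_zero hn⟩ ⟨0, Nat.pos_of_ne_zero hn⟩)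
    rw [h2] at h1
    calc _ ≤ B * (∑ i, |δ i|) ^ 2 := h1
      _ ≤ B * (n * HY.sq δ) := mul_le_mul_of_nonneg_left hS hB0
      _ = _ := by ring

/-- The sup norm and the Euclidean norm. -/
theorem norm_le_en (v : V n) : ‖v‖ ≤ √(HY.sq v) := by
  rw [pi_norm_le_iff_of_nonneg (Real.sqrt_nonneg _)]
  intro i
  rw [Real.norm_eq_abs, ← Real.sqrt_sq_eq_abs]
  refine Real.sqrt_le_sqrt ?_
  unfold HY.sq
  exact Finset.single_le_sum (f := fun i => v i ^ 2) (fun j _ => sq_nonneg _) (Finset.mem_univ i)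

/-- The derivative of `r²` in a direction which stretches the pair. -/
theorem r2_dir (h : PkOk q d) (T : Th q) (E : Te n q) {z w : VV n} (hz : z ∈ Gz q d)
    (hw : dif w = z.1 - z.2) (hm : √(HY.sq (mid w)) ≤ √(HY.sq (z.1 - z.2)) / 2) :
    DifferentiableAt ℝ d.r2 z ∧ 198 / 100 * d.r2 z ≤ fderiv ℝ d.r2 z w := by
  have hg := gi_TR h T E
  have hR := T.R1
  have hR0 := T.R0
  have k := rq_d (g := gi d.s₁) (z := z) (fun i j => (hg.sm i j).differentiable (by simp) _)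
    (fun x i j => hg.sy x i j) w
  have e1 : d.r2 = fun z => 2 * rq (gi d.s₁) z := rfl
  have e2 : fderiv ℝ d.r2 z w = 2 * (bf (gi d.s₁ (mid z)) (dif w) (dif z) +
      1 / 2 * bf (dg (mid w) (gi d.s₁) (mid z)) (dif z) (dif z)) := by
    rw [e1, fderiv_const_mul k.d]
    show 2 * fderiv ℝ (rq (gi d.s₁)) z w = _
    rw [k.e]
  have hd : dif z = z.1 - z.2 := rfl
  have e3 : d.r2 z = bf (gi d.s₁ (mid z)) (z.1 - z.2) (z.1 - z.2) := by
    rw [r2_eq]
    rfl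
  have hε0 : 0 ≤ H657.W.cG n 12 * q.ε := mul_nonneg (H657.W.cG_nn _ _) E.ε0.le
  have hb : ∀ i j, |dg (mid w) (gi d.s₁) (mid z) i j| ≤ H657.W.cG n 12 * q.ε := fun i j => by
    have h1 := hg.cl i j 1 (by norm_num) (mid z)
    rw [norm_iteratedFDeriv_one, pow_one] at h1
    have h4 : fderiv ℝ (fun x => gi d.s₁ x i j - (1 : Matrix (Fin n) (Fin n) ℝ) i j) (mid z) =
        fderiv ℝ (fun x => gi d.s₁ x i j) (mid z) := fderiv_sub_const _
    rw [h4] at h1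
    have h5 := (fderiv ℝ (fun x => gi d.s₁ x i j) (mid z)).le_opNorm (mid w)
    have h6 : ‖mid w‖ ≤ 1 := by
      refine (norm_le_en _).trans (hm.trans ?_)
      have h7 := sqr_le h T E hz
      have h8 : √(HY.sq (z.1 - z.2)) ≤ 2 := by
        rw [Real.sqrt_le_left (by norm_num)]
        linarith
      linarith
    have h9 : H657.W.cG n 12 * q.ε * q.R⁻¹ ≤ H657.W.cG n 12 * q.ε := by
      have : q.R⁻¹ ≤ 1 := inv_le_one_of_one_le₀ (by linarith)
      exact mul_le_of_le_one_right hε0 this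
    show |fderiv ℝ (fun x => gi d.s₁ x i j) (mid z) (mid w)| ≤ _
    rw [← Real.norm_eq_abs]
    refine h5.trans ?_
    calc _ ≤ H657.W.cG n 12 * q.ε * q.R⁻¹ * 1 :=
          mul_le_mul h1 h6 (norm_nonneg _) ((norm_nonneg _).trans h1)
      _ ≤ _ := by rw [mul_one]; exact h9
  have h10 := bf_dg_le (δ := z.1 - z.2) hb
  refine ⟨?_, ?_⟩
  · rw [e1]
    exact k.d.const_mul 2
  · rw [e2, hw, hd, ← e3]
    have h11 := (abs_le.1 h10).1
    have h12 := r2_ge h T E z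
    have h13 : (n : ℝ) * (H657.W.cG n 12 * q.ε) * HY.sq (z.1 - z.2) ≤ 1 / 100 * HY.sq (z.1 - z.2) :=
      mul_le_mul_of_nonneg_right E.gε (sqn _)
    have h14 := sqn (z.1 - z.2)
    linarith

/-- The derivative of the cut correction. -/
theorem muc_d (h : PkOk q d) (T : Th q) (s : ℝ) :
    DifferentiableAt ℝ (d.μc q) s ∧ |deriv (d.μc q) s| ≤ 1 / 4 := by
  have hR := T.R1
  have hR0 := T.R0
  have s1 : DifferentiableAt ℝ d.μ s := h.ph.isμ.sm.differentiable (by simp) s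
  have s2 : HasDerivAt (fun s : ℝ => 1 - Real.smoothTransition (2 * ((s - d.l₀ q) / q.R) - 1))
      (-(deriv Real.smoothTransition (2 * ((s - d.l₀ q) / q.R) - 1) * (2 / q.R))) s := by
    have h1 : HasDerivAt (fun s : ℝ => 2 * ((s - d.l₀ q) / q.R) - 1) (2 / q.R) s := by
      have h2 := ((((hasDerivAt_id s).sub_const (d.l₀ q)).div_const q.R).const_mul 2).sub_const 1
      refine h2.congr_deriv ?_
      ring
    have h3 := ((Real.smoothTransition.contDiff (n := 1)).differentiable (by norm_num)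
      (2 * ((s - d.l₀ q) / q.R) - 1)).hasDerivAt.comp s h1
    refine (h3.const_sub 1).congr_deriv ?_
    rfl
  have s3 := s1.hasDerivAt.mul s2
  have e : d.μc q = fun s => d.μ s * (1 - Real.smoothTransition (2 * ((s - d.l₀ q) / q.R) - 1)) :=
    rfl
  have s4 : HasDerivAt (d.μc q) _ s := s3
  refine ⟨s4.differentiableAt, ?_⟩
  rw [s4.deriv]
  have b1 : |deriv d.μ s| ≤ 1 / 8 := by
    have h1 := h.ph.isμ.d1 s
    have h2 := h.ph.isμ.d2 s
    have h3 := h.ph.b0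
    rw [abs_le]
    constructor <;> linarith
  have b2 := h.ph.μb s
  have b3 := Real.smoothTransition.nonneg (2 * ((s - d.l₀ q) / q.R) - 1)
  have b4 := Real.smoothTransition.le_one (2 * ((s - d.l₀ q) / q.R) - 1)
  have b5 := H475.deriv_st (2 * ((s - d.l₀ q) / q.R) - 1)
  have c1 : |deriv d.μ s * (1 - Real.smoothTransition (2 * ((s - d.l₀ q) / q.R) - 1))| ≤ 1 / 8 := by
    rw [abs_mul, abs_of_nonneg (by linarith : 0 ≤ 1 -
      Real.smoothTransition (2 * ((s - d.l₀ q) / q.R) - 1))]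
    have := abs_nonneg (deriv d.μ s)
    nlinarith
  have c2 : |d.μ s * (-(deriv Real.smoothTransition (2 * ((s - d.l₀ q) / q.R) - 1) *
      (2 / q.R)))| ≤ 1 / 8 := by
    rw [abs_mul, abs_neg, abs_of_nonneg (mul_nonneg b5.1 (by positivity))]
    have h1 : deriv Real.smoothTransition (2 * ((s - d.l₀ q) / q.R) - 1) * (2 / q.R) ≤ 1 := by
      have h2 : 2 / q.R ≤ 1 / 5 := by
        rw [div_le_div_iff₀ hR0 (by norm_num)]
        linarith
      have h3 : 0 ≤ 2 / q.R := by positivity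
      nlinarith [b5.1, b5.2]
    have h2 : 0 ≤ deriv Real.smoothTransition (2 * ((s - d.l₀ q) / q.R) - 1) * (2 / q.R) :=
      mul_nonneg b5.1 (by positivity)
    have := abs_nonneg (d.μ s)
    nlinarith
  refine (abs_add_le _ _).trans ?_
  linarith

theorem lfd_le (h : PkOk q d) (T : Th q) {x : V n} (hx : x ∈ Gp q d) (v : V n) :
    |fderiv ℝ d.l x v| ≤ 101 / 100 * √(HY.sq v) := by
  rw [l_fd h T (Gp_th h T hx)]
  refine (abs_dot_le _ _).trans (mul_le_mul_of_nonneg_right ?_ (Real.sqrt_nonneg _))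
  have h1 := (Gp_sq h T hx).2
  have h2 := T.σ1
  rw [Real.sqrt_le_left (by norm_num)]
  linarith

/-- The derivative of `u` in a direction moving one point. -/
theorem u_dir (h : PkOk q d) (T : Th q) (E : Te n q) {z w : VV n} (hz : z ∈ Gz q d)
    (hm : √(HY.sq (mid w)) ≤ √(HY.sq (z.1 - z.2)) / 2)
    (hw : √(HY.sq w.1) + √(HY.sq w.2) ≤ √(HY.sq (z.1 - z.2))) :
    DifferentiableAt ℝ (d.u q) z ∧ |fderiv ℝ (d.u q) z w| ≤ 13 / 10 * √(HY.sq (z.1 - z.2)) := by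
  have hev : d.u q =ᶠ[𝓝 z] fun z => d.l z.1 + d.l z.2 + 2 * d.μc q (d.l (mid z)) := by
    filter_upwards [(isOpen_Gz h T E).mem_nhds hz] with y hy
    exact u_Gz h hy
  have dl : ∀ x, DifferentiableAt ℝ d.l x := fun x => h.lev.sm.differentiable (by simp) x
  have f1 : HasFDerivAt (fun z : VV n => d.l z.1)
      ((fderiv ℝ d.l z.1).comp (ContinuousLinearMap.fst ℝ (V n) (V n))) z :=
    HasFDerivAt.comp z (dl z.1).hasFDerivAt hasFDerivAt_fst
  have f2 : HasFDerivAt (fun z : VV n => d.l z.2)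
      ((fderiv ℝ d.l z.2).comp (ContinuousLinearMap.snd ℝ (V n) (V n))) z :=
    HasFDerivAt.comp z (dl z.2).hasFDerivAt hasFDerivAt_snd
  have f3 : HasFDerivAt (fun z : VV n => d.l (mid z))
      ((fderiv ℝ d.l (mid z)).comp (midL n)) z :=
    HasFDerivAt.comp z (dl (mid z)).hasFDerivAt (midL n).hasFDerivAt
  obtain ⟨m1, m2⟩ := muc_d h T (d.l (mid z))
  have f4 : HasFDerivAt (fun z : VV n => d.μc q (d.l (mid z)))
      (deriv (d.μc q) (d.l (mid z)) • ((fderiv ℝ d.l (mid z)).comp (midL n))) z :=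
    HasDerivAt.comp_hasFDerivAt (h₂ := d.μc q) z m1.hasDerivAt f3
  have f5 := (f1.add f2).add (f4.const_mul 2)
  have f6 : HasFDerivAt (d.u q) _ z := f5.congr_of_eventuallyEq hev
  refine ⟨f6.differentiableAt, ?_⟩
  rw [f6.fderiv]
  have e : (((fderiv ℝ d.l z.1).comp (ContinuousLinearMap.fst ℝ (V n) (V n)) +
      (fderiv ℝ d.l z.2).comp (ContinuousLinearMap.snd ℝ (V n) (V n))) +
      (2 : ℝ) • (deriv (d.μc q) (d.l (mid z)) • ((fderiv ℝ d.l (mid z)).comp (midL n)))) w =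
      fderiv ℝ d.l z.1 w.1 + fderiv ℝ d.l z.2 w.2 +
        2 * (deriv (d.μc q) (d.l (mid z)) * fderiv ℝ d.l (mid z) (mid w)) := rfl
  rw [e]
  have k1 := lfd_le h T hz.1 w.1
  have k2 := lfd_le h T hz.2.1 w.2
  have k3 := lfd_le h T hz.2.2.1 (mid w)
  have k4 : |2 * (deriv (d.μc q) (d.l (mid z)) * fderiv ℝ d.l (mid z) (mid w))| ≤
      2 * (1 / 4 * (101 / 100 * √(HY.sq (mid w)))) := by
    rw [abs_mul, abs_mul, abs_of_pos (by norm_num : (0 : ℝ) < 2)]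
    gcongr
  have k5 := Real.sqrt_nonneg (HY.sq (z.1 - z.2))
  refine (abs_add_three _ _ _).trans ?_
  linarith

/-- `S' ≥ 1/2`, `0 ≤ S ≤ s` for `0 ≤ s ≤ 1`. -/
theorem prS_d {e₁ s : ℝ} (he : 0 < e₁) (h0 : 0 ≤ s) (h1 : s ≤ 1) :
    DifferentiableAt ℝ (prS e₁) s ∧ 1 / 2 ≤ deriv (prS e₁) s := by
  have P := H281.EP.pp_ok he
  have h2 := P.d2_Ph.d1 s
  have h3 : HasDerivAt (prS e₁) (H644.Ph1 2 Li e₁ rp dp s) s := h2
  refine ⟨h3.differentiableAt, ?_⟩
  rw [h3.deriv, P.Ph1_eq (by unfold rp; linarith)]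
  unfold H644.Fs1
  exact div_le_div_of_nonneg_right (H644.St_one_le (s := 2 ^ 2 * s) (by positivity)) (by norm_num)

theorem num_dir {N E ρ δ S S' U Y : ℝ} (N0 : 0 < N) (E0 : 0 < E) (ρ0 : 0 ≤ ρ) (ρc : ρ ≤ 1 / 50)
    (δρ : δ ≤ 102 / 100 * ρ) (hN : 10 * N ≤ E * ρ) (hU : -(13 / 10 * δ) ≤ U) (S0 : 0 ≤ S)
    (hS : S ≤ ρ ^ 2) (hS' : 1 / 2 ≤ S') (hY : 198 / 100 * ρ ^ 2 ≤ Y) :
    3 / 4 * (E * ρ ^ 2) ≤ N * U + (E * (S' * Y) + S * (E * U)) := by
  have k0 : -(1326 / 1000 * ρ) ≤ U := by linarith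
  have k1 : -(1326 / 10000 * (E * ρ ^ 2)) ≤ N * U := by
    have a1 := mul_le_mul_of_nonneg_left k0 N0.le
    have a2 := mul_le_mul_of_nonneg_right hN ρ0
    have e : E * ρ * ρ = E * ρ ^ 2 := by ring
    rw [e] at a2
    linarith
  have k2 : 99 / 100 * (E * ρ ^ 2) ≤ E * (S' * Y) := by
    have a0 : 0 ≤ Y := le_trans (by positivity) hY
    have a1 : 1 / 2 * Y ≤ S' * Y := mul_le_mul_of_nonneg_right hS' a0
    have a2 := mul_le_mul_of_nonneg_left (show 99 / 100 * ρ ^ 2 ≤ S' * Y by linarith) E0.le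
    linarith
  have k3 : -(3 / 100 * (E * ρ ^ 2)) ≤ S * (E * U) := by
    have a1 : -(3 / 100 * E) ≤ E * U := by
      have a2 := mul_le_mul_of_nonneg_left k0 E0.le
      have a3 : E * ρ ≤ E * (1 / 50) := mul_le_mul_of_nonneg_left ρc E0.le
      linarith
    have a4 := mul_le_mul_of_nonneg_left a1 S0
    have a5 : S * (3 / 100 * E) ≤ ρ ^ 2 * (3 / 100 * E) :=
      mul_le_mul_of_nonneg_right hS (by positivity)
    linarith
  have k4 : 0 ≤ E * ρ ^ 2 := by positivity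
  linarith

/-- The derivative of the weight in a stretching direction. -/
theorem W_dir (h : PkOk q d) (T : Th q) (E : Te n q) (he : 0 < q.e₁) {z w : VV n}
    (hz : z ∈ Gz q d) (hw : dif w = z.1 - z.2)
    (hm : √(HY.sq (mid w)) ≤ √(HY.sq (z.1 - z.2)) / 2)
    (hw' : √(HY.sq w.1) + √(HY.sq w.2) ≤ √(HY.sq (z.1 - z.2))) (hr : d.r2 z ≤ (2 * q.c₀) ^ 2)
    (hN : 100 * d.N q z ^ 2 ≤ d.E q z * d.m q z) :
    3 / 4 * (d.E q z * d.r2 z) ≤ fderiv ℝ (d.W q) z w := by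
  have hc0 := T.c0
  have hc1 := T.c1
  obtain ⟨r1, r2⟩ := r2_dir h T E hz hw hm
  obtain ⟨u1, u2⟩ := u_dir h T E hz hm hw'
  have g1 := r2_ge h T E z
  have sq0 := sqn (z.1 - z.2)
  have r0 : 0 ≤ d.r2 z := by linarith
  have rr : d.r2 z ≤ 1 := by nlinarith
  have E0 : 0 < d.E q z := Real.exp_pos _
  have N0 : 0 < d.N q z := N_pos h T _
  obtain ⟨s1, s2⟩ := prS_d he r0 rr
  have s3 : prS q.e₁ (d.r2 z) ≤ d.r2 z := H281.EP.prS_le he r0 rr
  have s4 : 0 ≤ prS q.e₁ (d.r2 z) := by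
    have := H281.EP.prS_ge1 he r0 rr
    linarith
  have hΦ : HasDerivAt d.Φ (deriv d.Φ (d.u q z)) (d.u q z) :=
    (h.top.sm.differentiable (by simp) _).hasDerivAt
  have f1 := hΦ.comp_hasFDerivAt z u1.hasFDerivAt
  have f2 : HasFDerivAt (fun z => Real.exp (d.u q z))
      (Real.exp (d.u q z) • fderiv ℝ (d.u q) z) z := u1.hasFDerivAt.exp
  have f3 := s1.hasDerivAt.comp_hasFDerivAt z r1.hasFDerivAt
  have f4 := f1.add (f2.mul f3)
  have f5 : HasFDerivAt (d.W q) _ z := f4.congr_of_eventuallyEq (W_Gz_ev h T E hz)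
  rw [f5.fderiv]
  have e : (deriv d.Φ (d.u q z) • fderiv ℝ (d.u q) z + (Real.exp (d.u q z) •
      (deriv (prS q.e₁) (d.r2 z) • fderiv ℝ d.r2 z) + (prS q.e₁ ∘ d.r2) z •
      (Real.exp (d.u q z) • fderiv ℝ (d.u q) z))) w =
      deriv d.Φ (d.u q z) * fderiv ℝ (d.u q) z w + (Real.exp (d.u q z) *
        (deriv (prS q.e₁) (d.r2 z) * fderiv ℝ d.r2 z w) + prS q.e₁ (d.r2 z) *
        (Real.exp (d.u q z) * fderiv ℝ (d.u q) z w)) := rfl
  rw [e]
  -- the sizes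
  set δ := √(HY.sq (z.1 - z.2)) with hδ
  set ρ := √(d.r2 z) with hρ
  have δ0 : 0 ≤ δ := Real.sqrt_nonneg _
  have ρ0 : 0 ≤ ρ := Real.sqrt_nonneg _
  have ρ2 : ρ ^ 2 = d.r2 z := Real.sq_sqrt r0
  have δρ : δ ≤ 102 / 100 * ρ := by
    have h5 : δ ^ 2 ≤ (102 / 100 * ρ) ^ 2 := by
      rw [mul_pow, ρ2, hδ, Real.sq_sqrt sq0]
      linarith
    exact abs_le_of_sq_le_sq' h5 (by positivity) |>.2
  have ρc : ρ ≤ 2 / 100 := by
    have : ρ ≤ 2 * q.c₀ := by
      rw [hρ, Real.sqrt_le_left (by positivity)]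
      exact hr
    linarith
  have hm2 : d.m q z = d.E q z * ρ ^ 2 := by rw [ρ2]; rfl
  have hNr : 10 * d.N q z ≤ d.E q z * ρ := by
    have h6 : (10 * d.N q z) ^ 2 ≤ (d.E q z * ρ) ^ 2 := by
      rw [hm2] at hN
      nlinarith
    exact abs_le_of_sq_le_sq' h6 (by positivity) |>.2
  have hE : Real.exp (d.u q z) = d.E q z := rfl
  have hNe : deriv d.Φ (d.u q z) = d.N q z := rfl
  rw [hE, hNe]
  rw [← ρ2] at r2 ⊢
  rw [← ρ2] at s3
  refine num_dir (δ := δ) N0 E0 ρ0 (by linarith) δρ hNr (abs_le.1 u2).1 ?_ ?_ ?_ r2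
  · rw [ρ2]; exact s4
  · exact s3
  · rw [ρ2]; exact s2

theorem fd_x (W : VV n → ℝ) (z : VV n) (δ : V n) :
    fderiv ℝ W z (δ, 0) = ∑ i, δ i * HY.dx i W z := by
  have e : ((δ, 0) : VV n) = ∑ i, δ i • ((Pi.single i 1, 0) : VV n) := by
    refine Prod.ext ?_ ?_
    · rw [Prod.fst_sum]
      ext j
      simp [Finset.sum_apply, Pi.single_apply]
    · rw [Prod.snd_sum]
      simp
  rw [e, map_sum]
  refine Finset.sum_congr rfl fun i _ => ?_
  rw [map_smul]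
  rfl

theorem fd_y (W : VV n → ℝ) (z : VV n) (δ : V n) :
    fderiv ℝ W z (0, δ) = ∑ i, δ i * HY.dy i W z := by
  have e : ((0, δ) : VV n) = ∑ i, δ i • ((0, Pi.single i 1) : VV n) := by
    refine Prod.ext ?_ ?_
    · rw [Prod.fst_sum]
      simp
    · rw [Prod.snd_sum]
      ext j
      simp [Finset.sum_apply, Pi.single_apply]
  rw [e, map_sum]
  refine Finset.sum_congr rfl fun i _ => ?_
  rw [map_smul]
  rfl

theorem num_low {E ρ2 sδ A F D : ℝ} (E0 : 0 < E) (r0 : 0 ≤ ρ2) (hδ : 99 / 100 * sδ ≤ ρ2)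
    (hD : 3 / 4 * (E * ρ2) ≤ D) (hA : 0 ≤ A) (hDA : D ^ 2 ≤ sδ * A) (hF : 1 / 2 * A ≤ F) :
    1 / 5 * (E * (E * ρ2)) ≤ F := by
  have h0 : 0 ≤ E * ρ2 := by positivity
  rcases r0.eq_or_lt with h | h
  · rw [← h]
    simp only [mul_zero]
    linarith
  · have h1 : (3 / 4 * (E * ρ2)) ^ 2 ≤ D ^ 2 := pow_le_pow_left₀ (by positivity) hD 2
    have h2 : sδ * A ≤ 100 / 99 * ρ2 * A := mul_le_mul_of_nonneg_right (by linarith) hA
    have h3 : ρ2 * (9 / 16 * (E * (E * ρ2))) ≤ ρ2 * (100 / 99 * A) := by nlinarith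
    have h4 := le_of_mul_le_mul_left h3 h
    have h5 : 0 ≤ E * (E * ρ2) := by positivity
    linarith

/-- **Lower bound of `F`.** -/
theorem F_low (h : PkOk q d) (T : Th q) (E : Te n q) (he : 0 < q.e₁) (S₁ : Sb d.s₁)
    (S₂ : Sb d.s₂) {z : VV n} (hz : z ∈ Gz q d) (hr : d.r2 z ≤ (2 * q.c₀) ^ 2)
    (hN : 100 * d.N q z ^ 2 ≤ d.E q z * d.m q z) :
    1 / 5 * (d.E q z * d.m q z) ≤ (fx d.s₁).F (d.W q) z ∧
      1 / 5 * (d.E q z * d.m q z) ≤ (fy d.s₂).F (d.W q) z := by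
  have E0 : 0 < d.E q z := Real.exp_pos _
  have g1 := r2_ge h T E z
  have sq0 := sqn (z.1 - z.2)
  have r0 : 0 ≤ d.r2 z := by linarith
  have s0 : HY.sq (0 : V n) = 0 := by unfold HY.sq; simp
  have hh : ∀ v : V n, √(HY.sq ((1 / 2 : ℝ) • v)) = √(HY.sq v) / 2 := fun v => by
    rw [H475.en_smul, abs_of_pos (by norm_num : (0 : ℝ) < 1 / 2)]
    ring
  have hneg : ∀ v : V n, HY.sq (-v) = HY.sq v := fun v => by unfold HY.sq; simp
  have e1 : d.m q z = d.E q z * d.r2 z := rfl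
  rw [e1]
  constructor
  · have k := W_dir h T E he (w := (z.1 - z.2, 0)) hz (by unfold dif; simp)
      (by
        have : mid ((z.1 - z.2, 0) : VV n) = (1 / 2 : ℝ) • (z.1 - z.2) := by unfold mid; simp
        rw [this, hh])
      (by show √(HY.sq (z.1 - z.2)) + √(HY.sq (0 : V n)) ≤ _; rw [s0]; simp) hr hN
    rw [fd_x] at k
    have c := Finset.sum_mul_sq_le_sq_mul_sq (Finset.univ : Finset (Fin n))
      (fun i => (z.1 - z.2) i) fun i => HY.dx i (d.W q) z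
    have F := (S₁.el z.1 fun i => (fx d.s₁).D i (d.W q) z).1
    simp only [fx_D] at F
    refine num_low (A := ∑ i, HY.dx i (d.W q) z ^ 2) E0 r0 g1 k
      (Finset.sum_nonneg fun i _ => sq_nonneg _) c ?_
    refine F.trans (le_of_eq ?_)
    unfold Sl.F Sl.Γ
    simp only [fx_D]
    rfl
  · have k := W_dir h T E he (w := (0, -(z.1 - z.2))) hz (by unfold dif; simp)
      (by
        have : mid ((0, -(z.1 - z.2)) : VV n) = (1 / 2 : ℝ) • (-(z.1 - z.2)) := by unfold mid; simp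
        rw [this, hh, hneg])
      (by show √(HY.sq (0 : V n)) + √(HY.sq (-(z.1 - z.2))) ≤ _; rw [s0, hneg]; simp) hr hN
    rw [fd_y] at k
    have c := Finset.sum_mul_sq_le_sq_mul_sq (Finset.univ : Finset (Fin n))
      (fun i => (-(z.1 - z.2)) i) fun i => HY.dy i (d.W q) z
    have F := (S₂.el z.2 fun i => (fy d.s₂).D i (d.W q) z).1
    simp only [fy_D] at F
    refine num_low (A := ∑ i, HY.dy i (d.W q) z ^ 2) (sδ := HY.sq (-(z.1 - z.2))) E0 r0
      (by rw [hneg]; exact g1) k (Finset.sum_nonneg fun i _ => sq_nonneg _) c ?_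
    refine F.trans (le_of_eq ?_)
    unfold Sl.F Sl.Γ
    simp only [fy_D]
    rfl

end Vale.Agent.P088.R2.H935.G
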