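import Vale.Agent.P088.R2.H935.G.Low
import Vale.Agent.P088.R2.H509.EP.Side
import Vale.Agent.P088.R2.H509.EP.Lit2

/-!
# P088, stage 3, row GAIN: the lower bound of the forms on the leaves `z2a`, `z2b`
-/

open MeasureTheory Set Filter
open scoped ContDiff Topology Matrix

noncomputable section

namespace Vale.Agent.P088.R2.H935.G

open Vale.Agent.P088.LR Vale.Agent.P088.HY Vale.Agent.P088.R2.H961.GW
open Vale.Agent.P088.R2.H551.E Vale.Agent.P088.R2.H31.EP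
open Vale.Agent.P088.R2.H867.EP (Zo zos mem_zos Near Off Inf)
open Vale.Agent.P088.R2.H464.Cu (mid rq)
open Vale.Agent.P088.R2.H238.C (Th Te LI LI_of NuI nuI Gz r2_ge Rm room)

variable {n : ℕ} {q : Cst} {d : Pk n} {z : VV n} {k : Zo}

/-- The facts about the near leaves which do not involve `N`'s upper bounds. -/
structure Nl (n : ℕ) (q : Cst) : Prop where
  T : Th q
  E : Te n q
  c0 : 0 < q.κ₁
  aC : q.aC ≤ q.cK / 400
  cK : 0 < q.cK
  e1 : 0 < q.e₁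
  M3 : 200 ≤ q.M₀ ^ (3 / 5 : ℝ)
  M9 : 1 ≤ q.cK * q.M₀ ^ (9 / 10 : ℝ)
  cB : 1 ≤ q.CB
  σR : q.σ ≤ q.R
  cp : ∀ d : Pk n, PkOk q d → (d.cp q).Ok
  sb : ∀ d : Pk n, PkOk q d → Sb d.s₁ ∧ Sb d.s₂

theorem ev_nl (n : ℕ) : EvC (Nl n) := by
  have h1 := H238.C.EvC.loc n
  have h3 : EvC fun q => 0 < q.cK → q.aC ≤ q.cK / 400 :=
    EvC.at_aC (fun q t => 0 < q.cK → t ≤ q.cK / 400) fun q => by
      by_cases hq : 0 < q.cK
      · filter_upwards [sml_le (a := q.cK / 400) (by positivity)] with t ht _ using ht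
      · exact Eventually.of_forall fun _ hc => absurd hc hq
  have h4 : EvC fun q => 0 < q.cK → 200 ≤ q.M₀ ^ (3 / 5 : ℝ) ∧
      1 ≤ q.cK * q.M₀ ^ (9 / 10 : ℝ) :=
    EvC.at_M₀ (fun q t => 0 < q.cK → 200 ≤ t ^ (3 / 5 : ℝ) ∧ 1 ≤ q.cK * t ^ (9 / 10 : ℝ))
      fun q => by
      by_cases hq : 0 < q.cK
      · have a1 : Tendsto (fun t : ℝ => t ^ (3 / 5 : ℝ)) atTop atTop :=
          tendsto_rpow_atTop (by norm_num)
        have a2 : Tendsto (fun t : ℝ => q.cK * t ^ (9 / 10 : ℝ)) atTop atTop :=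
          (tendsto_rpow_atTop (by norm_num)).const_mul_atTop hq
        filter_upwards [a1.eventually_ge_atTop 200, a2.eventually_ge_atTop 1] with t b1 b2 _
        exact ⟨b1, b2⟩
      · exact Eventually.of_forall fun _ hc => absurd hc hq
  refine (((h1.and (h3.and h4)).and (EvC.cpOk n)).and ((ev_sb n).and EvC.pos)).mono ?_
  rintro q ⟨⟨⟨h1, h3, h4⟩, h7⟩, h9, hp⟩
  have hcK : 0 < q.cK := hp.1.2.2.2.1
  have hR := h1.1.R1
  have hσ := h1.1.σ1
  exact ⟨h1.1, h1.2, hp.2.1.1, h3 hcK, hcK, hp.1.2.1, (h4 hcK).1, (h4 hcK).2,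
    hp.1.2.2.2.2.2.2.2.2.2, by linarith, h7, h9⟩

theorem near_nInf (hk : Near k) : ¬Inf k := by
  rcases hk with rfl | rfl | rfl | rfl | rfl <;> (unfold Inf; decide)

theorem Nl.r0 (H : Nl n q) (ok : PkOk q d) (z : VV n) : 0 ≤ d.r2 z := by
  have h1 := r2_ge ok H.T H.E z
  have h2 := sqn (z.1 - z.2)
  linarith

theorem Nl.N1 (H : Nl n q) (ok : PkOk q d) (z : VV n) : 1 ≤ d.N q z :=
  H.T.M1.trans (H238.C.N_ge ok _)

theorem Nl.utb (H : Nl n q) (ok : PkOk q d) (hz : d.ch q k z ≠ 0) (hk : Near k) :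
    d.u q z ≤ d.utb q := by
  have T := H.T
  have R1 := T.R1
  have fin := sd_fin hz (near_nInf hk) H.c0 T.σ0 T.R0
  have e1 := abs_le.1 (H238.C.u_abs ok z)
  have e7 : d.utb q = 2 * d.l₀ q + 47 / 10 * q.R := rfl
  have e8 : d.u0 z = d.l z.1 + d.l z.2 := rfl
  rw [e7]
  linarith [fin.2.2]

theorem Nl.r4 (H : Nl n q) (ok : PkOk q d) (hz : d.ch q k z ≠ 0) (hk : Near k) :
    d.r2 z ≤ (2 * q.c₀) ^ 2 := by
  have h := sd_r hz hk (H.cp d ok)
  linarith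

/-- The facts about a point of zone II. -/
structure Lz (q : Cst) (d : Pk n) (z : VV n) : Prop where
  gz : z ∈ Gz q d
  m1 : 1 ≤ 2 * d.m q z
  NE : 100 * d.N q z ^ 2 ≤ d.E q z * d.m q z
  Fx : 1 / 5 * (d.E q z * d.m q z) ≤ d.sx.F (d.W q) z
  Fy : 1 / 5 * (d.E q z * d.m q z) ≤ d.sy.F (d.W q) z

theorem Nl.lz (H : Nl n q) (ok : PkOk q d) (gz : z ∈ Gz q d) (hr : d.r2 z ≤ (2 * q.c₀) ^ 2)
    (m1 : 1 ≤ 2 * d.m q z) (NE : 100 * d.N q z ^ 2 ≤ d.E q z * d.m q z) : Lz q d z := by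
  have hs := H.sb d ok
  have h := F_low ok H.T H.E H.e1 hs.1 hs.2 gz hr NE
  exact ⟨gz, m1, NE, h.1, h.2⟩

/-- **The leaf `z2a`.** -/
theorem Nl.z2a (H : Nl n q) (ok : PkOk q d) (hz : d.ch q .z2a z ≠ 0) : Lz q d z := by
  have hk : Near (.z2a : Zo) := by unfold Near; decide
  have T := H.T
  have P := H.cp d ok
  have N1 := H.N1 ok z
  have N0 : 0 < d.N q z := by linarith
  have hN := sd_e0 hz hk (by decide) P T.aC0 N0
  have hC := sd_C hz (Or.inr rfl) P N0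
  have hu := H.utb ok hz hk
  have hr := H.r4 ok hz hk
  have p0 : 0 ≤ d.N q z ^ (13 / 5 : ℝ) := by positivity
  have L := LI_of ok T H.E hr hN (hC.trans (by linarith)) hu
  have hm := sd_z2a hz P
  have kl : d.N q z ^ (9 / 10 : ℝ) ≤ d.Kf q z := L.nu.Kl
  have ne : d.N q z ^ 2 ≤ 2 * q.aC * (d.E q z * d.Kf q z) := L.nu.NE
  have E0 : 0 < d.E q z := Real.exp_pos _
  have M0 : q.M₀ ^ (9 / 10 : ℝ) ≤ d.N q z ^ (9 / 10 : ℝ) :=
    Real.rpow_le_rpow (by linarith [T.M1]) (H238.C.N_ge ok _) (by norm_num)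
  have cK := H.cK
  have m1 : 1 ≤ d.m q z :=
    H.M9.trans ((mul_le_mul_of_nonneg_left (M0.trans kl) cK.le).trans hm)
  refine H.lz ok L.gz hr (by linarith) ?_
  have K0 : 0 < d.Kf q z := H238.C.K_pos ok _
  have h1 : q.aC * (d.E q z * d.Kf q z) ≤ q.cK / 400 * (d.E q z * d.Kf q z) :=
    mul_le_mul_of_nonneg_right H.aC (by positivity)
  have h2 : d.E q z * (q.cK * d.Kf q z) ≤ d.E q z * d.m q z :=
    mul_le_mul_of_nonneg_left hm E0.le
  have h3 : 0 < d.E q z * d.m q z := by positivity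
  have h4 : d.E q z * (q.cK * d.Kf q z) = 400 * (q.cK / 400 * (d.E q z * d.Kf q z)) := by ring
  linarith

/-- **The leaf `z2b`.** -/
theorem Nl.z2b (H : Nl n q) (ok : PkOk q d) (hz : d.ch q .z2b z ≠ 0) : Lz q d z := by
  have hk : Near (.z2b : Zo) := by unfold Near; decide
  have T := H.T
  have R1 := T.R1
  have P := H.cp d ok
  have N1 := H.N1 ok z
  have N0 : 0 < d.N q z := by linarith
  have hN := sd_e0 hz hk (by decide) P T.aC0 N0
  have hB := sd_B hz (Or.inr rfl) P N0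
  have hu := H.utb ok hz hk
  have hr := H.r4 ok hz hk
  have E0 : 0 < d.E q z := Real.exp_pos _
  have c00 := T.c0
  have c01 := T.c1
  have ut : d.u q z < d.uta q := by
    by_contra hc
    exact absurd hN (not_le.2 (H238.C.N_top ok T (not_lt.1 hc) hu))
  have e3 : d.N q z ^ (13 / 5 : ℝ) = d.N q z ^ (3 / 5 : ℝ) * d.N q z ^ 2 := by
    rw [← Real.rpow_natCast (d.N q z) 2, ← Real.rpow_add N0]
    norm_num
  have M3 : 200 ≤ d.N q z ^ (3 / 5 : ℝ) :=
    H.M3.trans (Real.rpow_le_rpow (by linarith [T.M1]) (H238.C.N_ge ok _) (by norm_num))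
  have E2 : 200 * d.N q z ^ 2 ≤ d.E q z := by
    refine le_trans ?_ hB
    rw [e3]
    exact mul_le_mul_of_nonneg_right M3 (sq_nonneg _)
  have E1 : 1 ≤ d.E q z := by nlinarith
  have u0 : 0 ≤ d.u q z := by
    have : Real.exp 0 ≤ Real.exp (d.u q z) := by rw [Real.exp_zero]; exact E1
    exact Real.exp_le_exp.1 this
  have hδ : √(HY.sq (z.1 - z.2)) ≤ 3 * q.c₀ := by
    refine H238.C.en_le_of_sq (by linarith) ?_
    have := r2_ge ok T H.E z
    nlinarith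
  have hta : d.uta q = 2 * d.l₀ q + 45 / 10 * q.R := rfl
  have l0 := H238.C.l0_nn ok T
  have rm := room ok T hδ (by linarith) (by linarith) (by linarith)
  have hx := abs_le.1 rm.x
  have hy := abs_le.1 rm.y
  have hp := abs_le.1 rm.p
  have gz : z ∈ Gz q d := ⟨⟨by linarith, by linarith⟩, ⟨by linarith, by linarith⟩,
    ⟨by linarith, by linarith⟩, by nlinarith⟩
  have r0 : 0 ≤ rq (gi d.s₁) z := by
    have h1 := H.r0 ok z
    have h2 : d.r2 z = 2 * rq (gi d.s₁) z := rfl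
    linarith
  have hm := sd_z2b hz P r0
  have R0 : 0 < q.R := T.R0
  have cB0 : 0 < q.CB := by linarith [H.cB]
  have c1 : q.σ / (q.CB * q.R) ≤ 1 := by
    rw [div_le_one (by positivity)]
    exact H.σR.trans (le_mul_of_one_le_left R0.le H.cB)
  have c0 : 0 ≤ q.σ / (q.CB * q.R) := by
    have := T.σ0
    positivity
  have m1 : 1 / 2 ≤ d.m₁ q (d.u q z) := by
    show 1 / 2 ≤ (Real.exp (-(26 / 100 * d.u q z)) + q.σ / (q.CB * q.R) * d.ξ q (d.u q z))⁻¹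
    have h1 : Real.exp (-(26 / 100 * d.u q z)) ≤ 1 := Real.exp_le_one_iff.2 (by linarith)
    have h2 : d.ξ q (d.u q z) ≤ 1 := (d.ξ_is q).le _
    have h3 : 0 < d.ξ q (d.u q z) := (d.ξ_is q).pos _
    have h4 : q.σ / (q.CB * q.R) * d.ξ q (d.u q z) ≤ 1 * 1 :=
      mul_le_mul c1 h2 h3.le zero_le_one
    have h5 : 0 ≤ q.σ / (q.CB * q.R) * d.ξ q (d.u q z) := mul_nonneg c0 h3.le
    have h6 := Real.exp_pos (-(26 / 100 * d.u q z))
    rw [one_div]
    exact inv_anti₀ (by linarith) (by linarith)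
  refine H.lz ok gz hr (by linarith) ?_
  have h3 : d.E q z * (1 / 2) ≤ d.E q z * d.m q z :=
    mul_le_mul_of_nonneg_left (m1.trans hm) E0.le
  linarith

/-- **The lower bounds on zone II.** -/
theorem EvC.low2 (n : ℕ) : EvC fun q => ∀ d : Pk n, PkOk q d → ∀ z,
    (d.ch q .z2a z ≠ 0 ∨ d.ch q .z2b z ≠ 0) → Lz q d z :=
  (ev_nl n).mono fun q H d ok z hz => by
    rcases hz with hz | hz
    · exact H.z2a ok hz
    · exact H.z2b ok hz

end Vale.Agent.P088.R2.H935.G
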