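import Vale.Agent.P088.R2.H935.G.LowF
import Vale.Agent.P088.R2.H349.EP.FW5
import Vale.Agent.P088.R2.H455.E.Lett

/-!
# P088, stage 3, row GAIN: the leaves near the diagonal
-/

open MeasureTheory Set Filter
open scoped ContDiff Topology Matrix

noncomputable section

namespace Vale.Agent.P088.R2.H935.G

open Vale.Agent.P088.LR Vale.Agent.P088.HY Vale.Agent.P088.R2.H961.GW
open Vale.Agent.P088.R2.H551.E Vale.Agent.P088.R2.H31.EP Vale.Agent.P088.R2.H455.E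
open Vale.Agent.P088.R2.H850.E (lw Nn)
open Vale.Agent.P088.R2.H867.EP (Zo zos mem_zos Near Off Inf)
open Vale.Agent.P088.R2.H464.Cu (mid)
open Vale.Agent.P088.R2.H349.EP (FwP Fwb fwD fwD_NB zx zy fw_near)
open Vale.Agent.P088.R2.H238.C (Th Te LI LI_of NuI nuI Gz r2_ge Rm room)

variable {n : ℕ}

/-- Upper bounds of `F` and `|Λ W|` near the diagonal. -/
structure UN (q : Cst) (d : Pk n) (C : ℝ) (z : VV n) : Prop where
  Fx : (fx d.s₁).F (d.W q) z ≤ C * (d.N q z + d.E q z * √(d.r2 z)) ^ 2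
  Fy : (fy d.s₂).F (d.W q) z ≤ C * (d.N q z + d.E q z * √(d.r2 z)) ^ 2
  Lx : |(fx d.s₁).Λ (d.W q) z| ≤ C * (d.N q z + d.E q z)
  Ly : |(fy d.s₂).Λ (d.W q) z| ≤ C * (d.N q z + d.E q z)

theorem NoM_of_M₀ {f : Cst → ℝ} (h : NB_M₀ f) : NoM f := fun q kv ε η Ck R => by
  rw [← h q, ← h { q with kv := kv, ε := ε, η := η, Ck := Ck, R := R }]
  rfl

theorem NoM_fwD (n : ℕ) : NoM (fwD n) := NoM_of_M₀ (fwD_NB n)

theorem NoM_c' {f : Cst → ℝ} (h : NB_c' f) : NoM f := fun q kv ε η Ck R => by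
  rw [← h q, ← h { q with kv := kv, ε := ε, η := η, Ck := Ck, R := R }]
  rfl

theorem NoM_c₀ {f : Cst → ℝ} (h : NB_c₀ f) : NoM f := fun q kv ε η Ck R => by
  rw [← h q, ← h { q with kv := kv, ε := ε, η := η, Ck := Ck, R := R }]
  rfl

theorem NoM_ηc {f : Cst → ℝ} (h : NB_ηc f) : NoM f := fun q kv ε η Ck R => by
  rw [← h q, ← h { q with kv := kv, ε := ε, η := η, Ck := Ck, R := R }]
  rfl

/-- From one bound of both `F + |Λ W| + 1`. -/
theorem gle_of {q : Cst} {d : Pk n} {M : Q8 (VV n)} {b X : ℝ} {z : VV n} (hb : 0 ≤ b)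
    (hx : (fx d.s₁).F (d.W q) z + |(fx d.s₁).Λ (d.W q) z| + 1 ≤ X)
    (hy : (fy d.s₂).F (d.W q) z + |(fy d.s₂).Λ (d.W q) z| + 1 ≤ X) (h1 : 1 ≤ X)
    (h : b * X ≤ lw M z) : GLe q d M b z :=
  ⟨fun _ => (mul_le_mul_of_nonneg_left hy hb).trans h,
    fun _ => (mul_le_mul_of_nonneg_left hx hb).trans h, by nlinarith⟩

/-- All the facts about the near leaves which are used here. -/
structure Nq (n : ℕ) (q : Cst) : Prop extends Nl n q where
  c1 : q.κ₁ ≤ 1 / 50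
  C1 : 1 ≤ fwD n q
  fw : ∀ d : Pk n, PkOk q d → FwP q d (fwD n q)
  lv : ∀ d : Pk n, PkOk q d → H404.INF.LvG q.σ q.R (d.l₀ q) (H475.gg n q.σ) d.l

theorem ev_nq (hn : 1 ≤ n) : EvC (Nq n) := by
  have h2 : EvC fun q => q.κ₁ ≤ 1 / 50 := EvC.at_κ₁ (fun _ t => t ≤ 1 / 50) fun _ =>
    sml_le (by norm_num)
  refine ((((ev_nl n).and h2).and (H349.EP.EvC.fw hn)).and (EvC.lvG n)).mono ?_
  rintro q ⟨⟨⟨h1, h2⟩, h5, h6⟩, h8⟩
  exact { h1 with c1 := h2, C1 := h5, fw := h6, lv := h8 }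

section pt

variable {q : Cst} {d : Pk n} {z : VV n} {k : Zo}

/-- The upper bounds on the near leaves. -/
theorem Nq.un (H : Nq n q) (ok : PkOk q d) (hz : d.ch q k z ≠ 0) (hk : Near k) :
    UN q d (fwD n q) z := by
  have P := H.fw d ok
  have T := H.T
  have R0 := T.R0
  have N := sd_near hz (near_nInf hk) H.c0 H.c1 (H.lv d ok)
  have g1 := (H.lv d ok).l12 z.1 |>.1 N.g1
  have g2 := (H.lv d ok).l12 z.2 |>.1 N.g2
  have h1 : d.l z.1 < d.l₀ q + 26 / 10 * q.R := by linarith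
  have h2 : d.l z.2 < d.l₀ q + 26 / 10 * q.R := by linarith
  obtain ⟨e1, e2⟩ := fw_near P.id h1 h2
  have fy := P.fy z h2
  have fx := P.fx z h1
  rw [e1] at fy
  rw [e2] at fx
  have hr : d.r2 z ≤ 4 := by
    have h3 := sd_r hz hk (H.cp d ok)
    have h4 := T.c0
    have h5 := T.c1
    nlinarith
  exact ⟨fx.nF hr, fy.nF hr, fx.nL hr, fy.nL hr⟩

theorem Nq.Em (H : Nq n q) (ok : PkOk q d) (z : VV n) :
    (d.E q z * √(d.r2 z)) ^ 2 = d.E q z * d.m q z := by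
  rw [mul_pow, Real.sq_sqrt (H.r0 ok z)]
  show d.E q z ^ 2 * d.r2 z = d.E q z * (d.E q z * d.r2 z)
  ring

end pt

/-! ## The leaf `z0` -/

theorem gl_z0 (hn : 1 ≤ n) {L : Lc n} (hL : L.Ok) : ∃ g, NoM g ∧ RowGL (Mz L) .z0 g := by
  refine ⟨fun q => L.c0 q * (L.cs q * q.σ) / (3 * (fwD n q + 1) * (1 + 2 / q.aC) ^ 2),
    fun q kv ε η Ck R => ?_, ?_⟩
  · simp only [NoM_c' hL.c0.2 q kv ε η Ck R, NoM_c' hL.cs.2 q kv ε η Ck R,
      NoM_fwD n q kv ε η Ck R]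
  refine (ev_nq hn).mono fun q H => ?_
  have T := H.T
  have ha : 0 < q.aC := T.aC0
  have hσ : 0 < q.σ := T.σ0
  have R1 : 1 ≤ q.R := by linarith [T.R1]
  have R0 : 0 < q.R := T.R0
  have C1 := H.C1
  have C0 : 0 ≤ fwD n q := by linarith
  have c0 := hL.c0.1 q
  have cs := (hL.cs.1 q).1
  set A := 1 + 2 / q.aC with hA
  have hA1 : 1 ≤ A := by
    have : 0 < 2 / q.aC := by positivity
    linarith
  set D := 3 * (fwD n q + 1) * A ^ 2 with hD
  have hD0 : 0 < D := by positivity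
  refine ⟨by positivity, fun d ok z hz => ?_⟩
  have u := H.un ok hz (Or.inl rfl)
  have P := H.cp d ok
  have N1 := H.N1 ok z
  have N0 : 0 < d.N q z := by linarith
  have e1 := sd_z0 hz P ha N0
  have E0 : 0 < d.E q z := Real.exp_pos _
  have r1 : √(d.r2 z) ≤ 1 := by
    have h2 := sd_r hz (Or.inl rfl) P
    have h3 := T.c0
    have h4 := T.c1
    rw [Real.sqrt_le_left one_pos.le]
    nlinarith
  have r0 := Real.sqrt_nonneg (d.r2 z)
  have e2 : d.E q z ≤ 2 / q.aC * d.N q z := by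
    rw [div_mul_eq_mul_div, le_div_iff₀ ha]
    linarith
  have e3 : d.N q z + d.E q z ≤ A * d.N q z := by rw [hA]; linarith
  have e4 : d.N q z + d.E q z * √(d.r2 z) ≤ A * d.N q z := by
    have : d.E q z * √(d.r2 z) ≤ d.E q z := mul_le_of_le_one_right E0.le r1
    linarith
  have e5 : (d.N q z + d.E q z * √(d.r2 z)) ^ 2 ≤ A ^ 2 * d.N q z ^ 2 := by
    rw [← mul_pow]
    exact pow_le_pow_left₀ (by positivity) e4 2
  have e8 : 1 ≤ A * d.N q z := by nlinarith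
  have e6 : d.N q z + d.E q z ≤ A ^ 2 * d.N q z ^ 2 := by
    refine e3.trans ?_
    nlinarith
  have e7 : 1 ≤ A ^ 2 * d.N q z ^ 2 := by nlinarith
  have key : ∀ {F l : ℝ}, F ≤ fwD n q * (d.N q z + d.E q z * √(d.r2 z)) ^ 2 →
      l ≤ fwD n q * (d.N q z + d.E q z) → F + l + 1 ≤ D * d.N q z ^ 2 := by
    intro F l hF hl
    have k1 := hF.trans (mul_le_mul_of_nonneg_left e5 C0)
    have k2 := hl.trans (mul_le_mul_of_nonneg_left e6 C0)
    have k3 : 0 ≤ A ^ 2 * d.N q z ^ 2 := by positivity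
    have k4 := mul_nonneg C0 k3
    rw [hD]
    nlinarith
  refine gle_of (X := D * d.N q z ^ 2) (by positivity) (key u.Fx u.Lx) (key u.Fy u.Ly) ?_ ?_
  · have h3 : (1 : ℝ) ≤ 3 * (fwD n q + 1) := by linarith
    rw [hD, mul_assoc]
    nlinarith
  · have m : L.c0 q * ((d.E q z + sg L q * d.N q z) * d.N q z ^ 2) =
        lw (Mz L q d .z0) z := by
      show _ = min (L.c0 q * ((d.E q z + sg L q * d.N q z) * d.N q z ^ 2))
        (L.c0 q * ((d.E q z + sg L q * d.N q z) * d.N q z ^ 2)) + 2 * min 0 0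
      simp
    rw [← m]
    have k5 : L.c0 q * (L.cs q * q.σ) / D * (q.R ^ 2)⁻¹ * (D * d.N q z ^ 2) =
        L.c0 q * (L.cs q * (q.σ / q.R)) * d.N q z ^ 2 * q.R⁻¹ := by
      field_simp
    rw [k5]
    have k6 : q.R⁻¹ ≤ d.N q z := (inv_le_one_of_one_le₀ R1).trans N1
    have k7 : 0 ≤ L.c0 q * (L.cs q * (q.σ / q.R)) * d.N q z ^ 2 := by positivity
    have k8 : 0 ≤ L.c0 q * (d.E q z * d.N q z ^ 2) := by positivity
    calc L.c0 q * (L.cs q * (q.σ / q.R)) * d.N q z ^ 2 * q.R⁻¹ ≤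
          L.c0 q * (L.cs q * (q.σ / q.R)) * d.N q z ^ 2 * d.N q z :=
          mul_le_mul_of_nonneg_left k6 k7
      _ ≤ L.c0 q * ((d.E q z + sg L q * d.N q z) * d.N q z ^ 2) := by
          unfold H455.E.sg
          nlinarith

end Vale.Agent.P088.R2.H935.G
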